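import Vale.Agent.P027H.Unif

/-! # P004F, block SPL / LGC: the chain of isogenies of degree two -/

set_option linter.all false

open scoped Classical

noncomputable section

namespace Vale.Agent.P004F.Sp

open P027H WeierstrassCurve.Affine
open Vale.Agent.P009.H844 (curve Pt)
open Vale.Agent.P009.Z (xc yc)

theorem tang {A B : ℂ} {Q : Pt A B} (h0 : Q ≠ 0) (hy : yc Q ≠ 0) :
    (xc (Q + Q) + 2 * xc Q) * (2 * yc Q) ^ 2 = (3 * xc Q ^ 2 + A) ^ 2 := by
  rcases Q with _ | ⟨x, y, h⟩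
  · exact absurd rfl h0
  have hy' : y ≠ 0 := hy
  have ny : y ≠ (curve A B).negY x y := fun e => hy' (by
    simp only [negY, curve] at e
    linear_combination e / 2)
  rw [Point.add_of_Y_ne ny]
  simp only [xc, yc]
  rw [slope_of_Y_ne rfl ny, addX, negY]
  simp only [curve]
  rw [show y - (-y - 0 * x - 0) = 2 * y by ring]
  field_simp
  ring

variable {M : Submodule ℤ ℂ} {p q r z : ℂ}

/-- the abscissa seen from the half period `p` -/
def xs (M : Submodule ℤ ℂ) (p z : ℂ) : ℂ := wp M z - wp M p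

/-- `M + ℤ p` -/
def up (M : Submodule ℤ ℂ) (p : ℂ) : Submodule ℤ ℂ := M ⊔ Submodule.span ℤ {p}

/-- `p` is a half period, `2 q = p` -/
structure Hf (M : Submodule ℤ ℂ) (p q : ℂ) : Prop where
  lat : IsLat M
  ne : p ∉ M
  two : 2 * p ∈ M
  half : 2 * q - p ∈ M

namespace Hf

variable (h : Hf M p q)
include h

theorem mem : z ∈ up M p ↔ z ∈ M ∨ z - p ∈ M := by
  refine ⟨fun e => ?_, fun e => e.elim (fun k => Submodule.mem_sup_left k) fun k =>
    mem_of_eq (add_mem (Submodule.mem_sup_left k)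
      (Submodule.mem_sup_right (Submodule.mem_span_singleton_self p))) (by ring)⟩
  obtain ⟨a, ha, b, hb, rfl⟩ := Submodule.mem_sup.1 e
  obtain ⟨k, rfl⟩ := Submodule.mem_span_singleton.1 hb
  rw [zsmul_eq_mul]
  obtain ⟨i, rfl | rfl⟩ := Int.even_or_odd' k
  · exact Or.inl (mem_of_eq (add_mem ha (int_mul_mem i h.two)) (by push_cast; ring))
  · exact Or.inr (mem_of_eq (add_mem ha (int_mul_mem i h.two)) (by push_cast; ring))

theorem le (e : z ∈ M) : z ∈ up M p := h.mem.2 (Or.inl e)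

theorem dbl (e : z ∈ up M p) : 2 * z ∈ M := (h.mem.1 e).elim
  (fun k => mem_of_eq (add_mem k k) (by ring))
  fun k => mem_of_eq (add_mem (add_mem k k) h.two) (by ring)

theorem q0 : q ∉ M := fun e => h.ne (mem_of_eq (sub_mem (add_mem e e) h.half) (by ring))

theorem q1 : q - p ∉ M := fun e => h.q0 (mem_of_eq (sub_mem h.half e) (by ring))

theorem q2 : 2 * q ∉ M := fun e => h.ne (mem_of_eq (sub_mem e h.half) (by ring))

theorem nx (k : 2 * r - q ∈ up M p) : Hf (up M p) q r :=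
  ⟨h.lat.of_between (fun _ => h.le) two_pos fun z e => by exact_mod_cast h.dbl e,
    fun e => (h.mem.1 e).elim h.q0 h.q1, h.mem.2 (Or.inr h.half), k⟩

theorem vel (z : ℂ) : wp (up M p) z = wp M z + xs M p (z - p) := by
  have r : Reps ![0, p] M (up M p) := ⟨fun _ => h.le, Fin.forall_fin_two.2
    ⟨zero_mem _, h.mem.2 (Or.inr (by simp))⟩, fun m e => (h.mem.1 e).elim
      (fun k => ⟨0, by simpa using k⟩) fun k => ⟨1, k⟩, Fin.forall_fin_two.2
    ⟨Fin.forall_fin_two.2 ⟨fun _ => rfl, fun e => absurd (by simpa using e) h.ne⟩,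
      Fin.forall_fin_two.2 ⟨fun e => absurd (by simpa using e) h.ne, fun _ => rfl⟩⟩⟩
  rw [r.wp h.lat (h.nx (r := q / 2) (mem_of_eq (zero_mem _) (by ring))).lat, Fin.sum_univ_two]
  simp [xs, h.lat.wp_mem (zero_mem _)]

theorem be : xs M p q ^ 2 = 3 * wp M p ^ 2 - g2 M / 4 := by
  have := h.lat.wp_half h.ne h.two h.q0 h.q1
  rwa [h.lat.wp_congr' (mem_of_eq h.half (by ring) : q - p + q ∈ M), ← sq] at this

theorem tr (h0 : z ∉ M) (h1 : z - p ∉ M) : xs M p (z - p) * xs M p z = xs M p q ^ 2 :=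
  h.be ▸ h.lat.wp_half h.ne h.two h0 h1

theorem ne0 (h0 : z ∉ M) (h1 : z - p ∉ M) : xs M p z ≠ 0 := sub_ne_zero.2
  (h.lat.wp_ne h0 h.ne h1 fun e => h1 (mem_of_eq (sub_mem e h.two) (by ring)))

theorem s0 : xs M p q ≠ 0 := h.ne0 h.q0 h.q1

theorem g3e : g3 M = 4 * wp M p ^ 3 - g2 M * wp M p := by
  have := h.lat.ode h.ne
  rw [(h.lat.dwp_eq_zero h.ne).2 h.two] at this
  linear_combination this

theorem ode (h0 : z ∉ M) : dwp M z ^ 2 =
    4 * xs M p z * (xs M p z ^ 2 + 3 * wp M p * xs M p z + xs M p q ^ 2) := by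
  rw [h.lat.ode h0, h.be, h.g3e, xs]
  ring

theorem dup (h2 : 2 * z ∉ M) :
    xs M p (2 * z) * dwp M z ^ 2 = (xs M p z ^ 2 - xs M p q ^ 2) ^ 2 := by
  have h0 : z ∉ M := fun e => h2 (mem_of_eq (add_mem e e) (two_mul z))
  obtain ⟨ex, -, hk, hx⟩ := h.lat.unif
  have k := tang (mt (hk z).1 h0) fun e => h2 ((h.lat.dwp_eq_zero h0).1 (by
    rw [← (hx z).2, e, mul_zero]))
  rw [← map_add, (hx _).1, (hx _).1, (hx _).2, ← two_mul] at k
  have e := h.ode h0
  rw [h.be] at e ⊢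
  simp only [xs] at e ⊢
  linear_combination k - (2 * wp M z + wp M p) * e

theorem e1 : wp (up M p) q = wp M p + 2 * xs M p q := by
  rw [h.vel, xs, xs, h.lat.wp_congr' (mem_of_eq h.half (by ring) : q - p + q ∈ M)]
  ring

/-- the step of the mean -/
theorem step (k : 2 * r - q ∈ M) :
    xs (up M p) q r ^ 2 = 4 * xs M p q * (3 * wp M p + 2 * xs M p q) ∧
    (xs M p r - xs M p (r - p)) ^ 2 = xs (up M p) q r * (xs (up M p) q r + 4 * xs M p q) := by
  have h2 : 2 * r ∉ M := fun e => h.q0 (mem_of_eq (sub_mem e k) (by ring))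
  have h0 : r ∉ M := fun e => h2 (mem_of_eq (add_mem e e) (two_mul r))
  have h1 : r - p ∉ M := fun e => h2 (mem_of_eq (add_mem (add_mem e e) h.two) (by ring))
  have e := h.dup h2
  have t := h.tr h0 h1
  have n := h.ne0 h0 h1
  rw [h.ode h0, show xs M p (2 * r) = xs M p q from congrArg (· - _) (h.lat.wp_congr k)] at e
  have w : xs (up M p) q r = xs M p r + xs M p (r - p) - 2 * xs M p q := by
    rw [xs, h.e1, h.vel]
    simp only [xs]
    ring
  rw [w]
  generalize xs M p r = x at *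
  generalize xs M p (r - p) = y at *
  generalize xs M p q = s at *
  refine ⟨mul_left_cancel₀ (pow_ne_zero 2 n) ?_, by linear_combination (-4) * t⟩
  linear_combination (2 * x ^ 2 + y * x + s ^ 2 - 4 * s * x) * t - e

end Hf

/-- a light form of `Tr` -/
structure Lt (σ : ℂ →+* ℂ) (M : Submodule ℤ ℂ) (ψ : ℂ → ℂ) : Prop where
  mem : ∀ z, ψ z ∈ M ↔ z ∈ M
  sub : ∀ z w, ψ (z - w) - (ψ z - ψ w) ∈ M
  wp : ∀ z, wp M (ψ z) = σ (wp M z)

theorem Lt.nx {σ : ℂ →+* ℂ} {ψ : ℂ → ℂ} (t : Lt σ M ψ) (h : Hf M p q) {k : ℤ}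
    (e : ψ q - k * q ∈ M) : σ (xs M p q) = xs M p q ∧ Lt σ (up M p) ψ := by
  have a0 := (t.mem 0).2 (zero_mem _)
  have a1 := t.sub 0 q
  have a2 := t.sub q (0 - q)
  have a3 : ψ (q - (0 - q)) - 2 * k * q ∈ M :=
    mem_of_eq (add_mem (sub_mem (sub_mem a2 a1) a0) (add_mem e e)) (by ring)
  have q4 : 4 * q ∈ M := mem_of_eq (add_mem (add_mem h.half h.half) h.two) (by ring)
  obtain ⟨i, rfl | rfl⟩ := Int.even_or_odd' k
  · exact absurd (mem_of_eq ((t.mem _).1 (mem_of_eq (add_mem a3 (int_mul_mem i q4))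
      (by push_cast; ring))) (by ring)) h.q2
  have a4 := t.sub (q - (0 - q)) p
  have a5 := (t.mem (q - (0 - q) - p)).2 (mem_of_eq h.half (by ring))
  have a6 : ψ p - p ∈ M := mem_of_eq (add_mem (add_mem (sub_mem a4 a5) a3)
    (add_mem (int_mul_mem i q4) h.half)) (by push_cast; ring)
  have a7 : ∀ z, ψ (z - p) - (ψ z - p) ∈ M := fun z =>
    mem_of_eq (sub_mem (t.sub z p) a6) (by ring)
  have w1 : σ (P027H.wp M p) = P027H.wp M p := by rw [← t.wp, h.lat.wp_congr a6]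
  have w2 : σ (P027H.wp M q) = P027H.wp M q := by
    rw [← t.wp]
    obtain ⟨j, rfl | rfl⟩ := Int.even_or_odd' i
    · exact h.lat.wp_congr (mem_of_eq (add_mem e (int_mul_mem j q4)) (by push_cast; ring))
    · exact h.lat.wp_congr' (mem_of_eq (add_mem e (int_mul_mem (j + 1) q4)) (by push_cast; ring))
  refine ⟨by rw [xs, map_sub, w1, w2], fun z => ?_, fun z w => h.le (t.sub z w), fun z => ?_⟩
  · rw [h.mem, h.mem, t.mem, ← t.mem (z - p)]
    exact or_congr_right ⟨fun a => mem_of_eq (add_mem (a7 z) a) (by ring),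
      fun a => mem_of_eq (sub_mem a (a7 z)) (by ring)⟩
  · rw [h.vel, h.vel, xs, xs, map_add, map_sub, w1, ← t.wp, ← t.wp, h.lat.wp_congr (a7 z)]

/-! ### unramified fields -/

/-- `2` is a uniformiser of `F` -/
structure Uf (V : AbsoluteValue ℂ ℝ) (F : Subfield ℂ) : Prop where
  na : IsNonarchimedean V
  two : V 2 < 1
  val : ∀ a ∈ F, V a < 1 → V a ≤ V 2

namespace Uf

variable {V : AbsoluteValue ℂ ℝ} {F : Subfield ℂ} (h : Uf V F)
include h

omit h in
theorem pos : 0 < V 2 := V.pos two_ne_zero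

omit h in
theorem four : V 4 = V 2 ^ 2 := by rw [← map_pow]; norm_num

theorem four_lt : V 4 < 1 := four (V := V) ▸ pow_lt_one₀ pos.le h.two two_ne_zero

theorem small {a : ℂ} (e : ∀ k : ℕ, V a ≤ V 2 ^ k) : a = 0 := by
  by_contra k
  obtain ⟨n, hn⟩ := exists_pow_lt_of_lt_one (V.pos k) h.two
  exact (e n).not_gt hn

theorem big {a : ℂ} (ha : a ∈ F) (e : 1 < V a) : 1 ≤ V 2 * V a := by
  have := h.val _ (inv_mem ha) (by rw [map_inv₀]; exact inv_lt_one_of_one_lt₀ e)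
  rwa [map_inv₀, inv_le_iff_one_le_mul₀ (zero_lt_one.trans e)] at this

theorem one_add {a : ℂ} (e : V a < 1) : V (1 + a) = 1 :=
  (h.na.add_eq_left_of_lt (by rwa [map_one])).trans (map_one _)

theorem o4 {a : ℂ} (e : V a ≤ 1) : V (1 + 4 * a) = 1 := h.one_add (by
  rw [map_mul]
  exact mul_lt_one_of_nonneg_of_lt_one_left (V.nonneg _) h.four_lt e)

variable {u d : ℕ → ℂ} (hu : ∀ n, u n ∈ F) (hr : ∀ n, u n = u (n + 1) ^ 2 * (1 + 4 * u n ^ 2))
include hu hr

theorem unit (hd : ∀ n, d n ∈ F) (u0 : ∀ n, u n ≠ 0) (s : ∀ n, 1 + 4 * u n ^ 2 = d n ^ 2) (n : ℕ) :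
    V (u (n + 1)) = 1 := by
  have st : ∀ n, V (u n) ≤ 1 → V (u n) = V (u (n + 1)) ^ 2 := fun n e => by
    rw [hr n, map_mul, map_pow, h.o4 (by rw [map_pow]; exact pow_le_one₀ (V.nonneg _) e), mul_one]
  have le : ∀ n, V (u (n + 1)) ≤ 1 := fun n => by
    rw [← sq_le_one_iff₀ (V.nonneg _)]
    rcases le_or_gt (V (u n)) 1 with e | e
    · exact st n e ▸ e
    have e1 : V (u n) = V (u (n + 1) * d n) ^ 2 := by rw [← map_pow, mul_pow, ← s, ← hr]
    have e2 := h.big (mul_mem (hu (n + 1)) (hd n)) (by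
      rwa [e1, one_lt_sq_iff₀ (V.nonneg _)] at e)
    have e3 : 1 ≤ V 4 * V (u n) := by
      rw [four, e1, ← mul_pow]
      exact one_le_pow₀ e2
    have e4 : V (1 + 4 * u n ^ 2) = V 4 * V (u n) * V (u n) := by
      rw [h.na.add_eq_right_of_lt] <;> rw [map_mul, map_pow]
      · ring
      · rw [map_one]
        nlinarith
    have e5 := congrArg V (hr n)
    rw [map_mul, map_pow, e4, ← mul_assoc] at e5
    have e6 := (mul_eq_right₀ (zero_lt_one.trans e).ne').1 e5.symm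
    nlinarith [sq_nonneg (V (u (n + 1)))]
  refine (le n).eq_or_lt.resolve_right fun e => u0 _ (h.small (a := u (n + 1)) fun k => ?_)
  induction k generalizing n with
  | zero => simpa using e.le
  | succ k ih =>
    have e1 := st _ (le n)
    have e2 : V (u (n + 2)) < 1 := by rwa [e1, sq_lt_one_iff₀ (V.nonneg _)] at e
    rw [e1, sq, pow_succ]
    exact mul_le_mul (ih _ e2) (h.val _ (hu _) e2) (V.nonneg _) (pow_nonneg pos.le _)

theorem const (f : ∀ n, V (u (n + 1) - 1) < 1) (n : ℕ) : u (n + 1) = u (n + 2) := by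
  have un : ∀ n, V (u (n + 1)) = 1 := fun n => by
    rw [← h.one_add (f n), add_sub_cancel]
  have ad : ∀ n, V (u (n + 1) + u (n + 2)) ≤ V 2 := fun n => h.val _ (add_mem (hu _) (hu _)) (by
    rw [show u (n + 1) + u (n + 2) = u (n + 1) - 1 + (u (n + 2) - 1) + 2 by ring]
    exact (h.na _ _).trans_lt (max_lt ((h.na _ _).trans_lt (max_lt (f _) (f _))) h.two))
  refine sub_eq_zero.1 (h.small fun k => ?_)
  induction k generalizing n with
  | zero =>
    rw [pow_zero, sub_eq_add_neg]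
    exact (h.na _ _).trans (max_le (un _).le (by rw [V.map_neg, un]))
  | succ k ih =>
    have e : (u (n + 1) - u (n + 2)) * (1 + 4 * -(u (n + 3) ^ 2 * (u (n + 1) + u (n + 2)))) =
        (u (n + 2) - u (n + 3)) * (u (n + 2) + u (n + 3)) * (1 + 4 * u (n + 1) ^ 2) := by
      linear_combination hr (n + 1) - hr (n + 2)
    have e1 := congrArg V e
    rw [map_mul, map_mul, map_mul, h.o4 (by
      rw [V.map_neg, map_mul, map_pow, un, one_pow, one_mul]
      exact (ad n).trans h.two.le), h.o4 (by rw [map_pow, un, one_pow]), mul_one, mul_one] at e1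
    rw [e1, pow_succ]
    exact mul_le_mul (ih _) (ad _) (V.nonneg _) (pow_nonneg pos.le _)

end Uf

/-! ### the chain -/

/-- `Λ + ℤ z n` -/
def La (Λ : Submodule ℤ ℂ) (z : ℕ → ℂ) : ℕ → Submodule ℤ ℂ
  | 0 => Λ
  | n + 1 => up (La Λ z n) (z (n + 1))

/-- the terms of the mean -/
def sn (Λ : Submodule ℤ ℂ) (z : ℕ → ℂ) (n : ℕ) : ℂ := xs (La Λ z n) (z (n + 1)) (z (n + 2))

/-- their ratios -/
def un (Λ : Submodule ℤ ℂ) (z : ℕ → ℂ) (n : ℕ) : ℂ :=
  (sn Λ z (n + 1) + 4 * sn Λ z n) / sn Λ z (n + 2)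

/-- a tower of parameters -/
structure Ch (Λ : Submodule ℤ ℂ) (z : ℕ → ℂ) : Prop where
  lat : IsLat Λ
  zero : z 0 ∈ Λ
  one : z 1 ∉ Λ
  succ : ∀ n, 2 * z (n + 1) - z n ∈ Λ

namespace Ch

variable {Λ : Submodule ℤ ℂ} {z : ℕ → ℂ} (c : Ch Λ z)
include c

omit c in
theorem le (n : ℕ) : Λ ≤ La Λ z n := by
  induction n with
  | zero => exact le_rfl
  | succ n ih => exact ih.trans le_sup_left

theorem hf (n : ℕ) : Hf (La Λ z n) (z (n + 1)) (z (n + 2)) := by
  induction n with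
  | zero => exact ⟨c.lat, c.one, mem_of_eq (add_mem (c.succ 0) c.zero) (by ring), c.succ 1⟩
  | succ n ih => exact ih.nx (le (n + 1) (c.succ _))

theorem s0 (n : ℕ) : sn Λ z n ≠ 0 := (c.hf n).s0

theorem st (n : ℕ) : sn Λ z (n + 1) ^ 2 =
    4 * sn Λ z n * (3 * wp (La Λ z n) (z (n + 1)) + 2 * sn Λ z n) :=
  ((c.hf n).step (le n (c.succ _))).1

theorem usq (n : ℕ) : un Λ z n ^ 2 * sn Λ z (n + 1) = sn Λ z n := by
  have a := c.st n
  have b := c.st (n + 1)
  rw [show wp (La Λ z (n + 1)) (z (n + 1 + 1)) = _ + 2 * sn Λ z n from (c.hf n).e1] at b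
  have := c.s0 (n + 2)
  rw [un, div_pow, div_mul_eq_mul_div, div_eq_iff (pow_ne_zero 2 this), b]
  linear_combination sn Λ z (n + 1) * a

theorem u0 (n : ℕ) : un Λ z n ≠ 0 := fun e => c.s0 n (by rw [← c.usq n, e]; ring)

theorem urec (n : ℕ) : un Λ z n = un Λ z (n + 1) ^ 2 * (1 + 4 * un Λ z n ^ 2) := by
  have e : un Λ z n * sn Λ z (n + 2) = _ := div_mul_cancel₀ _ (c.s0 (n + 2))
  refine mul_right_cancel₀ (c.s0 (n + 2)) ?_
  linear_combination e - (1 + 4 * un Λ z n ^ 2) * c.usq (n + 1) - 4 * c.usq n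

variable {F : Subfield ℂ} {G : AddSubgroup ℂ} (hz : ∀ n, z n ∈ G) (hG : ∀ w ∈ G, wp Λ w ∈ F)
include hz hG

theorem rat (n : ℕ) : ∀ w ∈ G, wp (La Λ z n) w ∈ F := by
  induction n with
  | zero => exact hG
  | succ n ih =>
    intro w hw
    rw [La, (c.hf n).vel]
    exact add_mem (ih w hw) (sub_mem (ih _ (sub_mem hw (hz _))) (ih _ (hz _)))

theorem xF (n : ℕ) {w : ℂ} (hw : w ∈ G) : xs (La Λ z n) (z (n + 1)) w ∈ F :=
  sub_mem (c.rat hz hG n _ hw) (c.rat hz hG n _ (hz _))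

theorem uF (n : ℕ) : un Λ z n ∈ F := div_mem (add_mem (c.xF hz hG _ (hz _))
  (mul_mem (ofNat_mem _ 4) (c.xF hz hG _ (hz _)))) (c.xF hz hG _ (hz _))

theorem unit {V : AbsoluteValue ℂ ℝ} (h : Uf V F) (n : ℕ) : V (un Λ z (n + 1)) = 1 := by
  refine h.unit (c.uF hz hG) c.urec (d := fun n => (xs (La Λ z n) (z (n + 1)) (z (n + 3)) -
    xs (La Λ z n) (z (n + 1)) (z (n + 3) - z (n + 1))) / sn Λ z (n + 1))
    (fun n => div_mem (sub_mem (c.xF hz hG _ (hz _)) (c.xF hz hG _ (sub_mem (hz _) (hz _))))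
      (c.xF hz hG _ (hz _))) c.u0 (fun n => ?_) n
  have e : _ = sn Λ z (n + 1) * (sn Λ z (n + 1) + 4 * sn Λ z n) :=
    ((c.hf n).step (le n (c.succ (n + 2)))).2
  rw [div_pow, e, eq_div_iff (pow_ne_zero 2 (c.s0 _))]
  linear_combination 4 * sn Λ z (n + 1) * c.usq n

variable {V : AbsoluteValue ℂ ℝ} (h : Uf V F)
include h

/-- **complex multiplication** -/
theorem cm (f : ∀ n, V (un Λ z (n + 1) - 1) < 1) : ∃ π : ℂ, π ^ 2 - π + 2 = 0 ∧ V π = 1 ∧
    ∀ n, ∀ w ∈ La Λ z (n + 2), π * w ∈ La Λ z (n + 1) := by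
  have k := h.const (c.uF hz hG) c.urec f
  have k1 : ∀ n, un Λ z (n + 1) = un Λ z 1 := fun n => by
    induction n with
    | zero => rfl
    | succ n ih => rw [← k, ih]
  have r := c.urec 1
  have u0 := c.u0 1
  have v1 := c.unit hz hG h 0
  have us : ∀ n, un Λ z 1 ^ 2 * sn Λ z (n + 2) = sn Λ z (n + 1) := fun n => k1 n ▸ c.usq (n + 1)
  rw [k1 1] at r
  generalize un Λ z 1 = u at r u0 v1 us
  have n1 : 1 + -(2 * u) ≠ 0 := V.ne_zero_iff.1 (by
    rw [h.one_add (by rw [V.map_neg, map_mul, v1, mul_one]; exact h.two)]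
    exact one_ne_zero)
  have e : 2 * u ^ 2 + u + 1 = 0 :=
    mul_left_cancel₀ (mul_ne_zero u0 n1) (by linear_combination r)
  refine ⟨-u⁻¹, ?_, by rw [V.map_neg, map_inv₀, v1, inv_one], fun n w hw => ?_⟩
  · field_simp
    linear_combination e
  have a := c.st (n + 1)
  have b := c.st (n + 2)
  have e1 : wp (La Λ z (n + 1)) (z (n + 2)) = u ^ 2 * wp (La Λ z (n + 2)) (z (n + 3)) := by
    refine mul_left_cancel₀ (mul_ne_zero (mul_ne_zero (pow_ne_zero 6 u0)
      (pow_ne_zero 2 (c.s0 (n + 3)))) (by norm_num : (12 : ℂ) ≠ 0)) ?_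
    rw [← us n, ← us (n + 1)] at a
    rw [← us (n + 1)] at b
    linear_combination u ^ 6 * sn Λ z (n + 3) * b - u ^ 2 * sn Λ z (n + 3) * a
  have g1 : sn Λ z (n + 1) ^ 2 = _ := (c.hf (n + 1)).be
  have g2' : sn Λ z (n + 2) ^ 2 = _ := (c.hf (n + 2)).be
  have e2 : g2 (La Λ z (n + 1)) = u ^ 4 * g2 (La Λ z (n + 2)) := by
    rw [← us n, e1] at g1
    linear_combination 4 * g1 - 4 * u ^ 4 * g2'
  have o := hom_scl u0 (La Λ z (n + 1))
  have e3 : scl u (La Λ z (n + 1)) = La Λ z (n + 2) :=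
    (o.isLat (c.hf _).lat).ext_g (c.hf _).lat (by rw [o.g2, e2]; field_simp)
      (by rw [o.g3, (c.hf (n + 1)).g3e, (c.hf (n + 2)).g3e, e1, e2]; field_simp)
  rw [e3] at o
  exact mem_of_eq (neg_mem ((o.2 (u⁻¹ * w)).2 (mem_of_eq hw (by field_simp)))) (by ring)

theorem ord : V (4 * (3 * wp (La Λ z 1) (z 2))) = V (sn Λ z 1) := by
  have p := V.pos (c.s0 1)
  have a := congrArg V (c.usq 1)
  have b := congrArg V (c.st 1)
  rw [map_mul, map_pow, c.unit hz hG h 0, one_pow, one_mul] at a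
  rw [map_pow, a, mul_comm 4, mul_assoc, map_mul, sq, mul_right_inj' p.ne'] at b
  rw [show 4 * (3 * wp (La Λ z 1) (z 2)) = 4 * (3 * wp (La Λ z 1) (z (1 + 1)) + 2 * sn Λ z 1) +
    -(4 * 2 * sn Λ z 1) by ring, h.na.add_eq_left_of_lt, ← b]
  rw [← b, V.map_neg, map_mul, map_mul]
  exact mul_lt_of_lt_one_left p
    (mul_lt_one_of_nonneg_of_lt_one_left (V.nonneg _) h.four_lt h.two.le)

end Ch

/-! ### halving -/

/-- the kernel of the reduction -/
def Nn (V : AbsoluteValue ℂ ℝ) (M : Submodule ℤ ℂ) (p q w : ℂ) : Prop :=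
  w ∈ M ∨ V (xs M p q) < V (xs M p w)

/-- its filtration -/
def Nk (V : AbsoluteValue ℂ ℝ) (M : Submodule ℤ ℂ) (p q : ℂ) (k : ℕ) (w : ℂ) : Prop :=
  w ∈ M ∨ V (xs M p q) ≤ V 2 ^ k * V (xs M p w)

namespace Hf

variable (c : Hf M p q) {V : AbsoluteValue ℂ ℝ} {F : Subfield ℂ} (h : Uf V F) {w w' : ℂ}
include c

theorem congr (e : Nn V M p q w) (k : w' - w ∈ M) : Nn V M p q w' :=
  e.imp (fun a => mem_of_eq (add_mem a k) (by ring)) fun a => by
    rwa [xs, xs, c.lat.wp_congr k]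

include h
variable (o : V (4 * (3 * wp M p)) = V (xs M p q))
include o

theorem halv (e : Nn V M p q (2 * w)) : Nn V M p q w ∨ Nn V M p q (w - p) := by
  by_contra k
  simp only [Nn, not_or, not_lt] at k
  obtain ⟨⟨a, b⟩, a', b'⟩ := k
  have S := V.pos c.s0
  have t := congrArg V (c.tr a a')
  rw [map_mul, map_pow] at t
  have x : V (xs M p w) = V (xs M p q) := b.antisymm (le_of_mul_le_mul_left
    (by nlinarith [mul_le_mul_of_nonneg_right b' (V.nonneg (xs M p w))]) S)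
  have l : V (4 * xs M p w ^ 2) < V (xs M p q) ^ 2 := by
    rw [map_mul, map_pow, x]
    exact mul_lt_of_lt_one_left (pow_pos S 2) h.four_lt
  have l' : V (4 * xs M p q ^ 2) < V (xs M p q) ^ 2 := by
    rw [map_mul, map_pow]
    exact mul_lt_of_lt_one_left (pow_pos S 2) h.four_lt
  have m : V (4 * (3 * wp M p) * xs M p w) = V (xs M p q) ^ 2 := by rw [map_mul, o, x, sq]
  have d : V (dwp M w ^ 2) = V (xs M p q) ^ 3 := by
    rw [c.ode a, show ∀ a b s : ℂ, 4 * a * (a ^ 2 + b * a + s ^ 2) =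
      a * (4 * b * a + (4 * a ^ 2 + 4 * s ^ 2)) from fun _ _ _ => by ring, map_mul,
      h.na.add_eq_left_of_lt (m ▸ (h.na _ _).trans_lt (max_lt l l')), m, x]
    ring
  have h2 : 2 * w ∉ M := fun i => by
    rw [(c.lat.dwp_eq_zero a).2 i] at d
    simpa [c.s0] using d.symm
  have u := congrArg V (c.dup h2)
  have v : V (xs M p w ^ 2 - xs M p q ^ 2) ≤ V (xs M p q) ^ 2 := by
    rw [sub_eq_add_neg]
    exact (h.na _ _).trans (max_le (by rw [map_pow, x]) (by rw [V.map_neg, map_pow]))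
  rw [map_mul, d, map_pow] at u
  have := mul_lt_mul_of_pos_right (e.resolve_left h2) (pow_pos S 3)
  have := pow_le_pow_left₀ (V.nonneg _) v 2
  nlinarith

theorem grow {k : ℕ} (e : Nk V M p q (k + 1) w) : Nk V M p q (k + 2) (2 * w) := by
  refine or_iff_not_imp_left.2 fun h2 => ?_
  have a : w ∉ M := fun i => h2 (mem_of_eq (add_mem i i) (two_mul w))
  have b := e.resolve_left a
  have S := V.pos c.s0
  have p2 := Uf.pos (V := V)
  have k1 : V 2 ^ k ≤ 1 := pow_le_one₀ p2.le h.two.le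
  have k2 : V 2 ^ (k + 1) < 1 := pow_lt_one₀ p2.le h.two (Nat.succ_ne_zero k)
  have X : 0 < V (xs M p w) := pos_of_mul_pos_right (S.trans_le b) (pow_nonneg p2.le _)
  have lt : V (xs M p q) < V (xs M p w) := b.trans_lt (mul_lt_of_lt_one_left X k2)
  have u := congrArg V (c.dup h2)
  have l : V (xs M p q ^ 2) < V (xs M p w ^ 2) := by
    rw [map_pow, map_pow]
    exact pow_lt_pow_left₀ lt S.le two_ne_zero
  rw [map_mul, map_pow V (_ - _), sub_eq_add_neg (xs M p w ^ 2),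
    h.na.add_eq_left_of_lt (by rwa [V.map_neg]), c.ode a, show ∀ a b s : ℂ,
      4 * a * (a ^ 2 + b * a + s ^ 2) = a * (4 * b * a + 4 * (a ^ 2 + s ^ 2)) from
      fun _ _ _ => by ring, map_mul, map_pow] at u
  have v := h.na (4 * (3 * wp M p) * xs M p w) (4 * (xs M p w ^ 2 + xs M p q ^ 2))
  rw [map_mul, o, map_mul V 4, h.na.add_eq_left_of_lt l, map_pow, Uf.four] at v
  have Y := V.nonneg (xs M p (2 * w))
  generalize V (4 * (3 * wp M p) * xs M p w + 4 * (xs M p w ^ 2 + xs M p q ^ 2)) = D at u v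
  generalize V (xs M p (2 * w)) = y at *
  generalize V (xs M p w) = x at *
  generalize V (xs M p q) = s at *
  have t2 := h.two
  generalize V 2 = t at *
  have u' : x ^ 3 = y * D := mul_left_cancel₀ X.ne' (by linear_combination -u)
  rcases le_max_iff.1 v with v | v
  · have i : x ^ 2 ≤ y * s := le_of_mul_le_mul_left
      (by nlinarith [mul_le_mul_of_nonneg_left v Y]) X
    have j := pow_le_pow_left₀ S.le b 2
    have m := mul_le_mul_of_nonneg_left i (sq_nonneg (t ^ (k + 1)))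
    have n : s ≤ (t ^ (k + 1)) ^ 2 * y := le_of_mul_le_mul_left (by nlinarith) S
    refine n.trans (mul_le_mul_of_nonneg_right ?_ Y)
    rw [← pow_mul]
    exact pow_le_pow_of_le_one p2.le t2.le (by omega)
  · have i : x ≤ t ^ 2 * y := le_of_mul_le_mul_left
      (by nlinarith [mul_le_mul_of_nonneg_left v Y]) (pow_pos X 2)
    refine b.trans ((mul_le_mul_of_nonneg_left i (pow_nonneg p2.le _)).trans ?_)
    rw [← mul_assoc, ← pow_add]
    exact mul_le_mul_of_nonneg_right (pow_le_pow_of_le_one p2.le t2.le (by omega)) Y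

end Hf

namespace Ch

variable {Λ : Submodule ℤ ℂ} {z : ℕ → ℂ} (c : Ch Λ z)
include c

theorem pw (n k : ℕ) : 2 ^ k * z (n + k) - z n ∈ Λ := by
  induction k with
  | zero => simp
  | succ k ih =>
    exact mem_of_eq (add_mem ih (nat_mul_mem (2 ^ k) (c.succ (n + k)))) (by
      rw [← add_assoc]; push_cast; ring)

variable {F : Subfield ℂ} {G : AddSubgroup ℂ} (hz : ∀ n, z n ∈ G) (hG : ∀ w ∈ G, wp Λ w ∈ F)
  {V : AbsoluteValue ℂ ℝ} (h : Uf V F)
include hz hG h

/-- **halving** -/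
theorem hlv : ∃ R₀, ∀ R, ∃ m : ℕ, ∀ w ∈ G, ∀ k : ℕ, 2 ^ k * w ∈ Λ ∨ R₀ < V (wp Λ (2 ^ k * w)) →
    ∃ (n : ℕ) (i : ℤ), 2 ^ m * w - i * z n ∈ Λ ∨ R < V (wp Λ (2 ^ m * w - i * z n)) := by
  have o := c.ord hz hG h
  have c0 := c.hf 0
  have c1 := c.hf 1
  have a1 : ∀ (k : ℕ) w, Nn V (La Λ z 1) (z 2) (z 3) (2 ^ k * w) →
      ∃ i : ℤ, Nn V (La Λ z 1) (z 2) (z 3) (w - i * z (k + 1)) := fun k => by
    induction k with
    | zero => exact fun w e => ⟨0, by simpa using e⟩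
    | succ k ih =>
      intro w e
      obtain ⟨i, a⟩ := ih (2 * w) (by rwa [← mul_assoc, ← pow_succ])
      rcases c1.halv h o (w := w - i * z (k + 2)) (c1.congr a (mem_of_eq
        (neg_mem (int_mul_mem i (le 1 (c.succ (k + 1))))) (by ring))) with b | b
      · exact ⟨i, b⟩
      · exact ⟨i + 2 ^ k, c1.congr b (mem_of_eq (neg_mem (le 1 (c.pw 2 k))) (by
          rw [add_comm 2 k]; push_cast; ring))⟩
  have a2 : ∀ w ∈ G, Nn V (La Λ z 1) (z 2) (z 3) w → ∀ m : ℕ,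
      Nk V (La Λ z 1) (z 2) (z 3) (m + 1) (2 ^ m * w) := fun w hw e m => by
    induction m with
    | zero =>
      rw [pow_zero, one_mul]
      refine e.imp_right fun e => ?_
      have S := V.pos c1.s0
      have := h.big (div_mem (c.xF hz hG 1 hw) (c.xF hz hG 1 (hz 3))) (by
        rwa [map_div₀, one_lt_div S])
      rwa [map_div₀, ← mul_div_assoc, one_le_div S, ← pow_one (V 2)] at this
    | succ m ih => exact (by rw [pow_succ', mul_assoc]; exact c1.grow h o ih)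
  have vl : ∀ w, xs (La Λ z 1) (z 2) w = wp Λ w + (xs Λ (z 1) (w - z 1) + -wp (La Λ z 1) (z 2)) :=
    fun w => by
      rw [xs, show wp (La Λ z 1) w = _ from c0.vel w]
      exact (add_sub_assoc _ _ _).trans (by rw [sub_eq_add_neg]; rfl)
  refine ⟨max (max (V (wp Λ (z 1))) (V (wp (La Λ z 1) (z 2)))) (max (V (sn Λ z 0)) (V (sn Λ z 1))),
    fun R => ?_⟩
  set R' := max (max R 1) (max (V (wp Λ (z 1))) (V (wp (La Λ z 1) (z 2)))) with hR
  have R1 : 0 < R' := zero_lt_one.trans_le ((le_max_right _ _).trans (le_max_left _ _))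
  obtain ⟨m, hm⟩ := exists_pow_lt_of_lt_one (div_pos (V.pos c1.s0) R1) h.two
  refine ⟨m, fun w hw k e => ?_⟩
  obtain ⟨i, a⟩ := a1 k w (by
    generalize 2 ^ k * w = y at e
    rcases e with e | e
    · exact Or.inl (le 1 e)
    simp only [max_lt_iff] at e
    obtain ⟨⟨b1, b2⟩, b3, b4⟩ := e
    have X := (V.nonneg _).trans_lt b1
    refine or_iff_not_imp_left.2 fun n => ?_
    have t := congrArg V (c0.tr (fun i => n (c0.le i)) fun i => n (c0.mem.2 (Or.inr i)))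
    have x0 : V (xs Λ (z 1) y) = V (wp Λ y) := by
      rw [xs, sub_eq_add_neg, h.na.add_eq_left_of_lt (by rwa [V.map_neg])]
    have t' : V (xs Λ (z 1) (y - z 1)) * V (wp Λ y) = V (sn Λ z 0) ^ 2 := by
      rw [← x0, ← map_mul, ← map_pow]
      exact t
    have y0 : V (xs Λ (z 1) (y - z 1)) < V (wp Λ y) := lt_of_mul_lt_mul_right (by
      rw [t', ← sq]
      exact pow_lt_pow_left₀ b3 (V.nonneg _) two_ne_zero) X.le
    rw [vl y, h.na.add_eq_left_of_lt ((h.na _ _).trans_lt (max_lt y0 (by rwa [V.map_neg])))]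
    exact b4)
  have b := a2 _ (sub_mem hw (by simpa using G.zsmul_mem (hz (k + 1)) i)) a m
  have e0 : 2 ^ m * w - (2 ^ m * i : ℤ) * z (k + 1) = 2 ^ m * (w - i * z (k + 1)) := by
    push_cast
    ring
  have e1 : 2 ^ m * w - (2 ^ m * i + 2 ^ k : ℤ) * z (k + 1) -
      (2 ^ m * (w - i * z (k + 1)) - z 1) ∈ Λ :=
    mem_of_eq (neg_mem (c.pw 1 k)) (by rw [add_comm 1 k]; push_cast; ring)
  generalize 2 ^ m * (w - i * z (k + 1)) = y at b e0 e1
  by_contra! n
  obtain ⟨n1, n2⟩ := n (k + 1) (2 ^ m * i)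
  obtain ⟨n3, n4⟩ := n (k + 1) (2 ^ m * i + 2 ^ k)
  rw [e0] at n1 n2
  rw [c.lat.wp_congr e1] at n4
  rcases b with b | b
  · exact (c0.mem.1 b).elim n1 fun j => n3 (mem_of_eq (add_mem e1 j) (sub_add_cancel _ _).symm)
  have l : V (xs (La Λ z 1) (z 2) y) ≤ R' := by
    have r0 : R ≤ R' := (le_max_left _ _).trans (le_max_left _ _)
    rw [vl, xs, sub_eq_add_neg (wp Λ _)]
    exact (h.na _ _).trans (max_le (n2.trans r0) ((h.na _ _).trans (max_le ((h.na _ _).trans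
      (max_le (n4.trans r0) (by rw [V.map_neg]; exact (le_max_left _ _).trans (le_max_right _ _))))
      (by rw [V.map_neg]; exact (le_max_right _ _).trans (le_max_right _ _)))))
  rw [lt_div_iff₀ R1] at hm
  exact hm.not_ge (b.trans (mul_le_mul (pow_le_pow_of_le_one Uf.pos.le h.two.le m.le_succ) l
    (V.nonneg _) (pow_nonneg Uf.pos.le _)))

end Ch

end Vale.Agent.P004F.Sp
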