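import Vale.Agent.P004F.Sp.St
import Vale.Agent.P004F.Sp.Bas
import Vale.Agent.P004F.Qx.Vex
import Vale.Agent.P004F.Qx.Typ
import Vale.Agent.P004F.Qx.Fr
import Vale.Agent.P004K.Hg.Un
import Vale.Agent.P022D.W.Tame
import Vale.Agent.P022.H20.Frob

/-! # P004F, block SPL / LGC: the rows AGM, HLV and the glue -/

set_option linter.all false

open NumberField Matrix
open scoped Classical NumberTheorySymbols

noncomputable section

namespace Vale.Agent.P004F.Sp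

open Vale.Agent.P022 Vale.Agent.P004K P027H P027M.M P027M.K
open Vale.Agent.P022E.GW (Ov Fb)
open P004M.TE (Pt ga pa pa_inj ga_some Cv rho bs Tm)
open Qx (Fk Ur Vp zf)

variable {A B : ℤ} {Λ : Submodule ℤ ℂ} {P : Ideal (𝓞 Qb)} {T : ℕ → Pt A B} {z : ℕ → ℂ}
  {V : AbsoluteValue ℂ ℝ}

/-- the inertia field -/
def uF (P : Ideal (𝓞 Qb)) : Subfield ℂ :=
  (IntermediateField.fixedField (Qx.Fg.inr P)).toSubfield.map (io : Qb →+* ℂ)

theorem mem_uF {w : ℂ} : w ∈ uF P ↔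
    ∃ a : Qb, (∀ g : GQ, (∀ x : 𝓞 Qb, g • x - x ∈ P) → g a = a) ∧ io a = w :=
  exists_congr fun a => and_congr_left' (IntermediateField.mem_fixedField_iff _ a)

theorem uf (o : Ov 2 P) (h : Vp V P) : Uf V (uF P) := by
  have t : V 2 < 1 := by simpa using (Qx.Vp.ov h o.2.1 o.1 o.2.2).lt
  refine ⟨h.1, t, fun w hw e => ?_⟩
  obtain ⟨a, ha, rfl⟩ := mem_uF.1 hw
  have := (h.2 _).1.1 (Qx.unv 2 P o.1 o.2.1 o.2.2 a ha ((h.2 a).2.2 e))
  rwa [map_div₀, map_div₀, map_natCast, div_le_one (V.pos (by norm_num))] at this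

/-- the unramified points -/
def uP (A B : ℤ) (P : Ideal (𝓞 Qb)) : AddSubgroup (Pt A B) where
  carrier := {y | Ur P y}
  add_mem' := fun a b g e => by rw [map_add, a g e, b g e]
  zero_mem' := fun g _ => map_zero _
  neg_mem' := fun a g e => by rw [map_neg, a g e]

theorem fk_zero (κ : ℕ) (hP : P.IsPrime) : Fk P κ (0 : Pt A B) :=
  ⟨fun _ _ _ e => absurd e.symm (WeierstrassCurve.Affine.Point.some_ne_zero _),
    1, 0, hP.one_notMem, by simp [show zf (0 : Pt A B) = 0 from rfl]⟩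

theorem bas (h : IsNonarchimedean V) {a b : Qb} (n : (Cv Qb (A : ℚ) (B : ℚ)).Nonsingular a b)
    (e : 1 < V (io a)) : V (io a) * V (io (-a / b)) ^ 2 = 1 := by
  have q := congrArg (fun x => V (io x)) (Qx.Fg.eq' n)
  have p := zero_lt_one.trans e
  have l : V (io a) < V (io a) ^ 3 := lt_self_pow₀ e (by norm_num)
  simp only [map_add, map_mul, map_pow, map_intCast] at q
  rw [add_assoc, h.add_eq_left_of_lt, map_pow] at q
  · rw [map_div₀, map_neg, map_div₀, V.map_neg, div_pow, q]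
    field_simp
  · rw [map_pow]
    refine (h _ _).trans_lt (max_lt ?_ (h.apply_intCast_le_one.trans_lt (e.trans l)))
    rw [map_mul]
    exact (mul_le_of_le_one_left p.le h.apply_intCast_le_one).trans_lt l

namespace Tw

variable (t : Tw Λ P T z)
include t

theorem ctx : ∃ (G : AddSubgroup ℂ) (ex : ℂ →+ (Cv ℂ (A : ℚ) (B : ℚ)).Point),
    (∀ w, ex w = 0 ↔ w ∈ Λ) ∧ (∀ w (y : Pt A B), Un Λ w y ↔ ex w = pa io y) ∧
    (∀ y : Pt A B, ∃ w, Un Λ w y) ∧ Ch Λ z ∧ (∀ w (y : Pt A B), Ur P y → Un Λ w y → w ∈ G) ∧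
    ∀ w ∈ G, wp Λ w ∈ uF P := by
  obtain ⟨ex, s, k, v⟩ := Hg.un_iff t.lat t.g2 t.g3
  refine ⟨((uP A B P).map (pa io)).comap ex, ex, k, v, fun y => (s _).imp fun w e => (v w y).2 e,
    ⟨t.lat, ?_, fun e => t.one ((t.un 1).1 e), fun n => ?_⟩,
    fun w y a b => ⟨y, a, ((v w y).1 b).symm⟩, fun w ⟨y, a, b⟩ => ?_⟩
  · rw [← k, (v _ _).1 (t.un 0), t.zero, map_zero]
  · rw [← k, map_sub, two_mul, map_add, (v _ _).1 (t.un _), (v _ _).1 (t.un _), ← map_add,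
      ← two_nsmul, t.succ, sub_self]
  · by_cases e : w ∈ Λ
    · rw [t.lat.wp_mem e]
      exact zero_mem _
    obtain ⟨x, y', n, rfl, p, -⟩ := ((v w y).2 b.symm).2 e
    refine mem_uF.2 ⟨x, fun g hg => ?_, p⟩
    have := a g hg
    rw [ga_some] at this
    injection this

theorem vp : ∃ V, Vp V P := Qx.vex P t.ov.2.1 (Qx.Fg.ne_bot two_ne_zero t.ov.2.2)

end Tw

/-- row AGM -/
theorem agm : AGM := by
  intro A B Λ P T z φ t hφ hk
  obtain ⟨V, hV⟩ := t.vp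
  obtain ⟨G, ex, k, v, -, c, g, r⟩ := t.ctx
  have hz := fun n => g _ _ (t.ur n) (t.un n)
  have h := uf t.ov hV
  obtain ⟨σ, hσ⟩ := ex_ex φ
  obtain ⟨Λ', ψ, a⟩ := t.lat.exists_tr σ
  obtain rfl : Λ = Λ' := t.lat.ext_g a.lat' (by rw [a.g23.1, t.g2]; simp [map_ofNat])
    (by rw [a.g23.2, t.g3]; simp [map_ofNat])
  have b : ∀ n, ∃ i : ℤ, ψ (z n) - i * z n ∈ Λ := fun n => (hk n).imp fun i e => by
    rw [← k, map_sub, ← zsmul_eq_mul, map_zsmul, (v _ _).1 (t.un n),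
      (v _ _).1 ((P004K.un A B Λ t.lat t.g2 t.g3).2.2 _ _ σ φ ψ (t.un n) hσ a), e, map_zsmul, sub_self]
  have l : ∀ n, Lt σ (La Λ z n) ψ := fun n => by
    induction n with
    | zero => exact ⟨a.mem, a.sub, a.wp⟩
    | succ n ih => exact (b _).elim fun i e => (ih.nx (c.hf n) (Ch.le n e)).2
  have s : ∀ n, σ (sn Λ z n) = sn Λ z n := fun n =>
    (b _).elim fun i e => ((l n).nx (c.hf n) (Ch.le n e)).1
  obtain ⟨π, e, u, m⟩ := c.cm hz r h fun n => by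
    have u := c.unit hz r h n
    have f : σ (Sp.un Λ z (n + 1)) = Sp.un Λ z (n + 1) := by
      rw [Sp.un, map_div₀, map_add, map_mul, map_ofNat, s, s, s]
    obtain ⟨x, -, p⟩ := mem_uF.1 (c.uF hz r (n + 1))
    rw [← p] at u f ⊢
    have := (hV.2 _).2.1 (Qx.Fg.frob t.ov.2.1 hφ ((hV.2 x).1.2 u.le))
    rwa [P004K.io_inj ((hσ x).symm.trans f), map_sub, map_pow, show ∀ y : ℂ, y - y ^ 2 = -y * (y - 1) from
      fun _ => by ring, map_mul, V.map_neg, u, one_mul] at this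
  have d : ∀ w ∈ La Λ z 1, 2 * w ∈ Λ := fun w => (c.hf 0).dbl
  refine ⟨π, e, fun w hw => mem_of_eq (d _ (m 0 w (Ch.le 2 hw))) (by ring),
    fun x p q => ((hV.2 x).2.1 q).ne (p ▸ u), fun n => ?_⟩
  have i : ∀ n, ∀ w ∈ La Λ z (n + 1), π ^ n * w ∈ La Λ z 1 := fun n => by
    induction n with
    | zero => exact fun w hw => mem_of_eq hw (by ring)
    | succ n ih => exact fun w hw => mem_of_eq (ih _ (m n w hw)) (by ring)
  rcases n with _ | n
  · exact ⟨0, mem_of_eq (add_mem c.zero c.zero) (by ring)⟩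
  · exact ⟨n, mem_of_eq (d _ (i n _ ((c.hf n).mem.2 (Or.inr (mem_of_eq (zero_mem _) (sub_self _))))))
      (by ring)⟩

/-- row HLV -/
theorem hlv : HLV := by
  intro A B Λ P T z t
  obtain ⟨V, hV⟩ := t.vp
  obtain ⟨G, ex, k, v, s, c, g, r⟩ := t.ctx
  have h := uf t.ov hV
  obtain ⟨R₀, H⟩ := c.hlv (fun n => g _ _ (t.ur n) (t.un n)) r h
  have R1 : 0 < max R₀ 1 := zero_lt_one.trans_le (le_max_right _ _)
  obtain ⟨j, hj⟩ := exists_pow_lt_of_lt_one (inv_pos.2 R1) h.two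
  refine ⟨2 ^ j, pow_ne_zero _ two_ne_zero, fun κ hκ => ?_⟩
  have K := V.pos (Nat.cast_ne_zero.2 hκ : (κ : ℂ) ≠ 0)
  obtain ⟨m, hm⟩ := H (max 1 (V κ ^ 2)⁻¹)
  refine ⟨m, fun y i a b => ?_⟩
  obtain ⟨w, hw⟩ := s y
  have pw : ∀ i : ℕ, ex (2 ^ i * w) = pa io (2 ^ i • y) := fun i => by
    rw [map_nsmul, ← (v _ _).1 hw, ← map_nsmul, nsmul_eq_mul, Nat.cast_pow, Nat.cast_two]
  obtain ⟨n, l, e⟩ := hm w (g _ _ a hw) i (or_iff_not_imp_left.2 fun o => by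
    obtain ⟨x, y', q, p, u, -⟩ := ((v _ _).2 (pw i)).2 o
    rw [p] at b
    have b1 : 1 < V (io x) := not_le.1 fun e => b.1 x y' q rfl ((hV.2 x).1.2 e)
    have b2 : V (io (-x / y' / (2 ^ j : ℕ))) ≤ 1 := (hV.2 _).1.1 b.2
    have p2 : 0 < V 2 ^ j := pow_pos Uf.pos j
    rw [map_div₀, map_div₀ V, map_natCast, Nat.cast_pow, Nat.cast_two, map_pow,
      div_le_one p2] at b2
    have b3 := bas hV.1 q b1
    have b4 : V 2 ^ j ≤ 1 := pow_le_one₀ Uf.pos.le h.two.le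
    have b5 := V.nonneg (io (-x / y'))
    rw [← one_div, lt_div_iff₀ R1] at hj
    rw [← u]
    refine (le_max_left R₀ 1).trans_lt (lt_of_mul_lt_mul_left (hj.trans_le ?_) p2.le)
    rw [← b3, mul_comm]
    exact mul_le_mul_of_nonneg_right (by nlinarith) (V.nonneg _))
  refine ⟨n, l, ?_⟩
  have u : Un Λ (2 ^ m * w - l * z n) (2 ^ m • y - l • T n) := (v _ _).2 (by
    rw [map_sub, map_sub, pw, ← zsmul_eq_mul, map_zsmul, map_zsmul, (v _ _).1 (t.un n)])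
  by_cases o : 2 ^ m * w - l * z n ∈ Λ
  · exact u.1 o ▸ fk_zero κ t.ov.2.1
  obtain ⟨x, y', q, p, u, -⟩ := u.2 o
  obtain ⟨b1, b2⟩ := max_lt_iff.1 (u ▸ e.resolve_left o)
  have b3 := bas hV.1 q b1
  rw [p]
  refine ⟨fun _ _ _ f j => ?_, (hV.2 _).1.2 ?_⟩
  · injection f with f
    exact b1.not_ge ((hV.2 _).1.1 (f ▸ j))
  · show V (io (-x / y' / κ)) ≤ 1
    rw [map_div₀, map_div₀ V, map_natCast, div_le_one K, ← sq_le_sq₀ (V.nonneg _) K.le]
    rw [inv_lt_iff_one_lt_mul₀ (pow_pos K 2), ← b3] at b2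
    exact (lt_of_mul_lt_mul_left b2 (V.nonneg _)).le

/-! ### the glue -/

theorem rho_eq {a b : ℚ} (hD : 4 * a ^ 3 + 27 * b ^ 2 ≠ 0) {g : GQ} {v : Fin 2 → ℤ_[2]}
    {α : ℤ_[2]} (e : P004M.TE.mt hD g *ᵥ v = α • v) :
    rho a b g ((bs hD).equivFun.symm v) = α • (bs hD).equivFun.symm v := by
  have := LinearMap.toMatrix_mulVec_repr (bs hD) (bs hD) (rho a b g) ((bs hD).equivFun.symm v)
  refine (bs hD).equivFun.injective ?_
  rw [map_smul, LinearEquiv.apply_symm_apply, ← e, Module.Basis.equivFun_apply, ← this,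
    ← Module.Basis.equivFun_apply, LinearEquiv.apply_symm_apply]
  rfl

theorem tower (e : Crv) {v : Fin 2 → ℤ_[2]} (h : e.Iv 2 v) : ∃ (r : ℕ) (z : ℕ → ℂ),
    Tw e.Λ (e.P 2) (fun n => TM.cp (r + n) ((bs (hq e.par.disc)).equivFun.symm v)) z := by
  set x := (bs (hq e.par.disc)).equivFun.symm v with hx
  have n : ∃ r, TM.cp (r + 1) x ≠ 0 := by
    by_contra! k
    refine h.1 ((bs (hq e.par.disc)).equivFun.symm.map_eq_zero_iff.1 (TM.ext fun r => ?_))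
    rw [map_zero, ← hx, ← TM.cp_succ, k, nsmul_zero]
  choose z hz using (P004K.un e.A e.B e.Λ e.par.lat e.par.g2_eq e.par.g3_eq).1
  refine ⟨Nat.find n, fun i => z _, e.par.disc, e.par.lat, e.par.g2_eq, e.par.g3_eq,
    e.ov 2 e.two, ?_, fun i => TM.cp_succ x _, Nat.find_spec n, fun i g hg => ?_, fun i => hz _⟩
  · rcases k : Nat.find n with _ | r
    · exact TM.cp_zero x
    · exact not_not.1 (Nat.find_min n (k ▸ r.lt_succ_self))
  · rw [← P004M.TE.cp_rho, rho_eq _ ((h.2 g hg).trans (one_smul _ v).symm), one_smul]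

theorem ex_fix (φ : GQ) (y : Pt A B) : ∃ f, f ≠ 0 ∧ ga (φ ^ f) y = y := by
  let U : Subgroup GQ :=
    { carrier := {g | ga g y = y}
      mul_mem' := fun {a b} p q => (P004M.TE.ga_mul a b y).trans (by rw [q, p])
      one_mem' := P004M.TE.ga_one y
      inv_mem' := fun {a} p => by
        show ga a⁻¹ y = y
        conv_lhs => rw [← show ga a y = y from p]
        rw [← P004M.TE.ga_mul, inv_mul_cancel, P004M.TE.ga_one] }
  have o : IsOpen (U : Set GQ) := U.isOpen_of_mem_nhds (g := 1)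
    ((P004M.TE.ev_ga 1 y).mono fun g e => e.trans (P004M.TE.ga_one y))
  have := Subgroup.quotient_finite_of_isOpen U o
  obtain ⟨m, h1, -, h2⟩ := U.exists_pow_mem_of_index_ne_zero Subgroup.index_ne_zero_of_finite φ
  exact ⟨m, h1.ne', h2⟩

/-- **row SPL** -/
theorem spl (idx : P004F.IDX) : SPL := by
  intro e ⟨v, h⟩ κ hκ
  obtain ⟨r, z, t⟩ := tower e h
  obtain ⟨κ₀, k0, H⟩ := hlv _ _ _ _ _ _ t
  obtain ⟨c, hc⟩ := H κ hκ
  obtain ⟨φ, hφ⟩ := P022D.W.exists_phi t.ov.1 t.ov.2.1 t.ov.2.2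
  refine ⟨c, fun y a => ?_⟩
  obtain ⟨f, f0, hf⟩ := ex_fix φ y
  obtain ⟨m, m0, hm⟩ := idx _ _ t.disc _ φ t.ov hφ κ₀ f k0 f0
  obtain ⟨k, n, o, rfl⟩ := Nat.exists_eq_two_pow_mul_odd m0
  obtain ⟨i, l, b⟩ := hc (n • y) k ((uP _ _ _).nsmul_mem a n) (by rw [← mul_smul]; exact hm y a hf)
  exact ⟨n, r + i, _, o, by rw [smul_comm, TM.pow_smul_cp, smul_zero],
    (uP _ _ _).zsmul_mem (t.ur i) l, by rw [mul_smul]; exact b⟩

/-- **row LGC** -/
theorem lgc (cmt : CMT) (the : THE) : LGC := by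
  intro e v φ α h hφ a
  obtain ⟨r, z, t⟩ := tower e h
  have b := rho_eq _ a
  set x := (bs (hq e.par.disc)).equivFun.symm v with hx
  obtain ⟨π, c⟩ := agm _ _ _ _ _ _ φ t hφ fun n => ⟨ap α (r + n), by
    rw [← P004M.TE.cp_rho, b, TM.cp_smul, natCast_zsmul]⟩
  obtain ⟨D, S, o, S0, h1, h2⟩ := cmt _ _ _ _ _ _ π t c
  obtain ⟨n, a2⟩ := the e.N e.G e.a D (S * e.S.prod) e.rn o (mul_ne_zero S0
    (List.prod_ne_zero fun k => (e.ov 0 k).1.ne_zero rfl)) fun p hp k => by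
      obtain ⟨g, hg⟩ := H20.exists_isFrob hp
      exact h1 p hp (fun i => k (i.mul_right _)) g hg _
        ((e.bad p hp fun i => k ((List.dvd_prod i).mul_left _)).2.2 g hg)
  have k : (α ^ 2 - J(2 | D) * α + 2) • x = 0 := TM.ext fun i => by
    have := h2 φ hφ i
    simp only [← P004M.TE.cp_rho, b, map_smul] at this
    rw [← TM.cp_add _ i r, ← TM.cp_add _ i r, add_comm i r, map_zero, add_smul, sub_smul, sq,
      mul_smul, mul_smul, Int.cast_smul_eq_zsmul, map_add, map_sub, map_zsmul, ofNat_smul_eq_nsmul,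
      map_nsmul, this]
  rw [if_neg n, a2]
  linear_combination (smul_eq_zero.1 k).resolve_right fun k =>
    h.1 ((bs (hq e.par.disc)).equivFun.symm.map_eq_zero_iff.1 k)

end Vale.Agent.P004F.Sp
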