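import Vale.Agent.P004F.Sp.Cmt0

/-! # P004F, row CMT: the traces of Frobenius elements -/

set_option autoImplicit false
set_option linter.all false

open NumberField
open scoped Classical NumberTheorySymbols

noncomputable section

namespace Vale.Agent.P004F.Sp

open Vale.Agent.P022 Vale.Agent.P004K P004K.Rc P027H P027M.M
open Vale.Agent.P022E.GW (Ov Fb)
open P004M.TE (Pt ga)
open P004S (nu ov_dvd)
open P004R.Xt (iz mem_below nm_eq)
open P027M.K

namespace Ct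

/-! ### points -/

section

variable {A B : ℤ} {O : Type} [CommRing O] {J : O →+* ℂ} {Λ M : Submodule ℤ ℂ} {ω : ℂ}
  {σ : ℂ ≃+* ℂ} {ψ : ℂ → ℂ} {g : GQ}

theorem pt (h : Ol J Λ M ω) (h2 : g2 Λ = -4 * A) (h3 : g3 Λ = -4 * B) {z₁ z₂ z₃ : ℂ}
    {y₁ y₂ y₃ : Pt A B} (u₁ : Un Λ z₁ y₁) (u₂ : Un Λ z₂ y₂) (u₃ : Un Λ z₃ y₃) {a b : ℤ}
    (e : z₁ + a * z₂ + b * z₃ ∈ M) : 2 • (y₁ + a • y₂ + b • y₃) = 0 := by
  obtain ⟨ex, -, k, v⟩ := Hg.un_iff h.lat h2 h3
  rw [v] at u₁ u₂ u₃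
  refine P004M.TE.pa_inj io ?_
  rw [map_nsmul, map_add, map_add, map_zsmul, map_zsmul, ← u₁, ← u₂, ← u₃, map_zero, ← map_zsmul,
    ← map_zsmul, ← map_add, ← map_add, ← map_nsmul, k]
  exact mem_of_eq (h.two _ e) (by simp only [nsmul_eq_mul, zsmul_eq_mul, Nat.cast_ofNat])

theorem un_mul {Λ : Submodule ℤ ℂ} (h : IsLat Λ) (h2 : g2 Λ = -4 * A) (h3 : g3 Λ = -4 * B) {z : ℂ}
    {y : Pt A B} (u : Un Λ z y) (m : ℕ) : Un Λ (m * z) (m • y) ∧ (m • y = 0 → m * z ∈ Λ) := by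
  obtain ⟨ex, -, k, v⟩ := Hg.un_iff h h2 h3
  rw [v] at u
  rw [v, ← k, ← nsmul_eq_mul, map_nsmul, map_nsmul, u]
  exact ⟨rfl, fun e => by rw [← map_nsmul, e, map_zero]⟩

theorem quad (h : Ol J Λ M ω) (h2 : g2 Λ = -4 * A) (h3 : g3 Λ = -4 * B) (x : Ex σ g)
    (t : Tq σ 1 Λ Λ ψ) {a c : O} (k : ∀ z, J a * z ∈ M → ψ z - J c * z ∈ M) {u v : ℤ}
    (e : c ^ 2 + u * c + v = 0) {z : ℂ} {y : Pt A B} (hz : J a * z ∈ M) (w : Un Λ z y) :
    2 • (ga g (ga g y) + u • ga g y + v • y) = 0 := by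
  have f := (un A B Λ h.lat h2 h3).2.2
  have w1 := f _ _ _ _ _ w x t.tr1
  have e' := congrArg J e
  simp only [map_add, map_mul, map_pow, map_intCast, map_zero] at e'
  have k1 := k z hz
  have k2 := k (ψ z) (mem_of_eq (add_mem (h.mul a k1) (h.mul c hz)) (by ring))
  exact pt h h2 h3 (f _ _ _ _ _ w1 x t.tr1) w1 w (mem_of_eq (add_mem (add_mem k2 (h.mul c k1))
    (int_mul_mem u k1)) (by linear_combination z * e'))

open P004M.TE (frob_mt rho Tm cp_rho bs mt_eq mat_ch) in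
theorem trc (hD : 4 * (A : ℚ) ^ 3 + 27 * (B : ℚ) ^ 2 ≠ 0) {l : ℕ} (hl : l.Prime)
    (hg : ¬ (l : ℤ) ∣ 2 * (4 * A ^ 3 + 27 * B ^ 2)) (f : IsFrob l g) {u v t : ℤ}
    (h : ∀ (m : ℕ) (y : Pt A B), 2 ^ m • y = 0 → 2 • (ga g (ga g y) + u • ga g y + v • y) = 0)
    (e : (P004M.TE.mt hD g).trace = t) : t = -u := by
  have := Fact.mk hl
  have d := (frob_mt hD hg f).2
  have e1 : rho (A : ℚ) (B : ℚ) g * rho (A : ℚ) (B : ℚ) g + u • rho (A : ℚ) (B : ℚ) g +
      v • (1 : Module.End ℤ_[2] (Tm A B)) = 0 := LinearMap.ext fun x => TM.ext fun r => by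
    rw [LinearMap.zero_apply, map_zero, ← TM.cp_succ, ← h _ _ (TM.pow_smul_cp x (r + 1))]
    simp only [LinearMap.add_apply, LinearMap.smul_apply, Module.End.mul_apply,
      Module.End.one_apply, map_add, map_zsmul, cp_rho]
  have e2 := congrArg (LinearMap.toMatrixAlgEquiv (bs hD)) e1
  rw [map_add, map_add, map_mul, map_zsmul, map_zsmul, map_one, map_zero, ← mt_eq,
    ← Int.cast_smul_eq_zsmul ℤ_[2], ← Int.cast_smul_eq_zsmul ℤ_[2]] at e2
  rcases mat_ch e2 with k | k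
  · exact_mod_cast e.symm.trans k.1
  · rw [k] at d e
    simp [Matrix.det_fin_two, Matrix.trace_fin_two] at d e
    have e3 : t ^ 2 = 4 * l := by
      exact_mod_cast (show (t : ℤ_[2]) ^ 2 = 4 * l by rw [← e, ← d]; ring)
    obtain ⟨r, rfl⟩ : 2 ∣ t := Int.prime_two.dvd_of_dvd_pow (n := 2) ⟨2 * l, by omega⟩
    exact absurd ⟨r.natAbs, by
      rw [← Int.natAbs_mul, show r * r = l by linarith, Int.natAbs_natCast]⟩ hl.prime.not_isSquare

end

/-! ### the field -/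

variable {K : Type} [Field K] [NumberField K] {j : K →+* Qb} {η : 𝓞 K} {s : 𝓞 K →+* 𝓞 K}
  {Λ M : Submodule ℤ ℂ} {ω : ℂ} {n l : ℕ} {P : Ideal (𝓞 Qb)} {g : GQ}

/-- the data -/
structure Dt (j : K →+* Qb) (η : 𝓞 K) (s : 𝓞 K →+* 𝓞 K) (Λ M : Submodule ℤ ℂ) (ω : ℂ) (n : ℕ) :
    Prop where
  mt : MT
  iq : Iq K
  ge : Fd.Ge j η s (-1) 2
  ol : Ol (JJ j) Λ M ω
  ch : Ch (JJ j η) M ω n

theorem ge_eq (g : Fd.Ge j η s (-1) 2) : η ^ 2 - η + 2 = 0 := by
  have e1 := g.tr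
  have e2 := g.nm
  push_cast at e1 e2
  linear_combination η * e1 - e2

theorem ge_nm (g : Fd.Ge j η s (-1) 2) (x y : ℤ) :
    (x + y * η) * s (x + y * η) = (x ^ 2 + x * y + 2 * y ^ 2 : ℤ) := by
  have e1 := g.tr
  have e2 := g.nm
  rw [map_add, map_mul, map_intCast, map_intCast]
  push_cast at e1 e2 ⊢
  linear_combination x * y * e1 + y ^ 2 * e2

theorem sm_rt (e : η ^ 2 - η + 2 = 0) (g : GQ) :
    g • iz j η = iz j η ∨ g • iz j η = 1 - iz j η :=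
  two_rt (map_rt (iz j) e) (map_rt (MulSemiringAction.toRingHom GQ (𝓞 Qb) g) (map_rt (iz j) e))

theorem gk_of (q : Qd (JJ j) η s) (e : g • iz j η = iz j η) : g ∈ GK j := fun x => by
  have e3 (a : 𝓞 K) : g (j a) = j a := by
    obtain ⟨u, v, rfl⟩ := q.sp a
    have : g (j η) = j η := congrArg (fun z : 𝓞 Qb => (z : Qb)) e
    simp [this]
  obtain ⟨a, b, -, rfl⟩ := IsFractionRing.div_surjective (A := 𝓞 K) x
  rw [map_div₀, map_div₀]
  exact congrArg₂ _ (e3 a) (e3 b)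

namespace Dt

variable (d : Dt j η s Λ M ω n)
include d

/-- **the action of inertia and Frobenius elements** -/
theorem act (o : Ov l P) (l7 : l ≠ 7) {c : 𝓞 K} (hc : below j P = Ideal.span {c})
    (hg : g ∈ GK j) {k : ℕ}
    (f : ∀ x : 𝓞 Qb, g • x - x ^ Ideal.absNorm (below j P) ^ k ∈ P) {x y : ℤ}
    (e : c ^ k = x + y * η) : ∃ σ ψ, ∃ ε : ℤ, Ex σ g ∧ Tq σ 1 Λ Λ ψ ∧
      ε * J(2 * x + y | 7) = sd n g ∧
      ∀ a ∉ below j P, ∀ z, JJ j a * z ∈ M → ψ z - JJ j (ε * (x + y * η)) * z ∈ M := by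
  have q := d.ge.q
  have P0 : P ≠ ⊥ := fun z => o.1.ne_zero (by simpa [z] using o.2.2)
  have c0 : c ≠ 0 := fun z => o.1.ne_zero (by
    have : (l : 𝓞 K) ∈ below j P := mem_below.2 (by rw [map_natCast]; exact o.2.2)
    simpa [hc, z] using this)
  obtain ⟨σ, hσ⟩ := ex_ex g
  obtain ⟨ψ, t, t'⟩ := d.ol.tr σ
  have kl : KL (JJ j) 1 M := ⟨d.ol.lat', fun a z => d.ol.mul _⟩
  obtain ⟨χ, h1, h2⟩ := d.mt K j d.iq σ ⟨g, hg⟩ hσ P o.2.1 P0 k f 1 M
    (fun a => P004R.Mu.one_nm o (by simpa [mem_below] using a)) kl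
  rw [hc, Ideal.span_singleton_pow] at h1 h2
  have hm := q.st_span kl (a := c ^ k) ⟨0, c ^ k, by simp⟩
    ⟨by simpa using fun z => absurd z c0, by simp⟩
  obtain ⟨u, hu, h3⟩ := (h1.homR hm).uniq t'.tp
  obtain ⟨ε, hε, rfl⟩ := d.ol.unit q (d.ge.upm (by norm_num)) hu
  have h4 : ∀ a ∉ below j P, ∀ z, JJ j a * z ∈ M → ψ z - JJ j (ε * (x + y * η)) * z ∈ M :=
    fun a ha z hz => mem_of_eq (add_mem (h3 z) (int_mul_mem ε ((hm.2 _).1
      (h2 z ⟨a, hc ▸ ha, hz⟩)))) (by rw [← e, map_mul, map_intCast]; ring)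
  refine ⟨σ, ψ, ε, hσ, t, ?_, h4⟩
  have e1 := ge_eq d.ge
  have h5 := h4 (2 * η - 1) (fun a => l7 ((Nat.prime_dvd_prime_iff_eq o.1 (by norm_num)).1
    (Int.natCast_dvd_natCast.1 (ov_dvd o (a := (7 : ℕ)) (by
      rw [← map_intCast (iz j), show (((7 : ℕ) : ℤ) : 𝓞 K) = -(2 * η - 1) * (2 * η - 1) by
        push_cast; linear_combination 4 * e1]
      exact mem_below.1 (Ideal.mul_mem_left _ _ a)))))) (ω / (2 * JJ j η - 1)) (by
    rw [map_sub, map_mul, map_ofNat, map_one, mul_div_cancel₀ _ (th_ne (map_rt _ e1))]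
    exact d.ol.om)
  rw [← d.ch σ g ψ (ε * (x + 4 * y)) hσ ((hσ _).trans (congrArg io (hg _))) t'
    (mem_of_eq (add_mem h5 (int_mul_mem ε (d.ol.red e1 x y))) (by
      rw [map_mul, map_intCast]; push_cast; ring)), jacobiSym.mul_left,
    jacobiSym.mod_left' (a₁ := x + 4 * y) (a₂ := 4 * (2 * x + y)) (by omega), jacobiSym.mul_left,
    jacobiSym.at_four (by decide), one_mul]
  rcases hε with rfl | rfl <;> norm_num

/-- split primes -/
theorem spl (o : Ov l P) (l7 : l ≠ 7) {x y : ℤ} (e : x ^ 2 + x * y + 2 * y ^ 2 = l)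
    (h : x + y * η ∈ below j P) {k : ℕ} (f : ∀ x : 𝓞 Qb, g • x - x ^ l ^ k ∈ P) {x' y' : ℤ}
    (e' : (x + y * η) ^ k = x' + y' * η) : ∃ σ ψ, ∃ ε : ℤ, Ex σ g ∧ Tq σ 1 Λ Λ ψ ∧
      ε * J(2 * x' + y' | 7) = sd n g ∧
      ∀ a ∉ below j P, ∀ z, JJ j a * z ∈ M → ψ z - JJ j (ε * (x' + y' * η)) * z ∈ M := by
  have hp := Nat.prime_iff_prime_int.1 o.1
  have ly : ¬ (l : ℤ) ∣ y := by
    rintro ⟨b, rfl⟩
    obtain ⟨a, rfl⟩ := hp.dvd_of_dvd_pow (n := 2) (a := x)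
      ⟨1 - x * b - 2 * l * b ^ 2, by linear_combination e⟩
    exact hp.not_dvd_one ⟨a ^ 2 + a * b + 2 * b ^ 2, mul_left_cancel₀ hp.ne_zero
      (by linear_combination -e)⟩
  have nm := ge_nm d.ge x y
  rw [e] at nm
  have hc : below j P = Ideal.span {(x + y * η : 𝓞 K)} := by
    refine le_antisymm (fun a ha => ?_) ((Ideal.span_singleton_le_iff_mem _).2 h)
    obtain ⟨u, v, rfl⟩ := d.ge.q.sp a
    obtain ⟨m, hm⟩ := ov_dvd o (a := y * u - v * x) (by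
      rw [← map_intCast (iz j), show ((y * u - v * x : ℤ) : 𝓞 K) = y * (u + v * η) - v * (x + y * η)
        by push_cast; ring]
      exact mem_below.1 (sub_mem (Ideal.mul_mem_left _ _ ha) (Ideal.mul_mem_left _ _ h)))
    obtain ⟨a, b, e1⟩ := hp.irreducible.coprime_iff_not_dvd.2 ly
    have e2 := congrArg (Int.cast : ℤ → 𝓞 K) e1
    have e3 := congrArg (Int.cast : ℤ → 𝓞 K) hm
    push_cast at e2 e3 nm
    exact Ideal.mem_span_singleton.2 ⟨(a * (u + v * η) + b * m) * s (x + y * η) + b * v, by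
      linear_combination -(u + v * η) * e2 + b * e3 - (a * (u + v * η) + b * m) * nm⟩
  refine d.act o l7 hc (gk_of d.ge.q ((sm_rt (ge_eq d.ge) g).resolve_right fun z => ?_))
    (by rwa [hc, nm_eq d.iq d.ge.q nm, Int.natAbs_natCast]) e'
  rw [mem_below, map_add, map_mul, map_intCast, map_intCast] at h
  have h1 := P.add_mem (f (x + y * iz j η)) (P.pow_mem_of_mem h _ (pow_pos o.1.pos k))
  have h2 : g • ((x : 𝓞 Qb) + y * iz j η) = x + y * g • iz j η := by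
    have := map_add (MulSemiringAction.toRingHom GQ (𝓞 Qb) g) (x : 𝓞 Qb) (y * iz j η)
    rwa [map_mul, map_intCast, map_intCast] at this
  rw [sub_add_cancel, h2, z] at h1
  obtain ⟨m, hm⟩ := ov_dvd o (a := 2 * x + y) (by
    rw [show ((2 * x + y : ℤ) : 𝓞 Qb) = x + y * iz j η + (x + y * (1 - iz j η)) by push_cast; ring]
    exact P.add_mem h h1)
  refine (hp.dvd_or_dvd (a := (7 : ℕ)) (b := y ^ 2) ⟨4 - l * m ^ 2, by
    push_cast; linear_combination 4 * e - (2 * x + y + l * m) * hm⟩).elim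
    (fun a => l7 ((Nat.prime_dvd_prime_iff_eq o.1 (by norm_num)).1 (Int.natCast_dvd_natCast.1 a)))
    fun a => ly (hp.dvd_of_dvd_pow a)

/-- inert primes -/
theorem ine (o : Ov l P) (l2 : l ≠ 2) (h : J(l | 7) = -1) :
    below j P = Ideal.span {(l : 𝓞 K)} := by
  have od := o.1.odd_of_ne_two l2
  have h1 : J(-7 | l) = -1 := by
    rw [jacobiSym.neg _ od, ← h]
    rcases Nat.odd_mod_four_iff.1 (Nat.odd_iff.1 od) with a | a
    · rw [ZMod.χ₄_nat_one_mod_four a, one_mul]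
      exact (jacobiSym.quadratic_reciprocity_one_mod_four (b := 7) a (by decide)).symm
    · rw [ZMod.χ₄_nat_three_mod_four a, jacobiSym.quadratic_reciprocity_three_mod_four (b := 7) a rfl]
      simp
  refine le_antisymm (fun a ha => ?_) ((Ideal.span_singleton_le_iff_mem _).2
    (mem_below.2 (by rw [map_natCast]; exact o.2.2)))
  obtain ⟨u, v, rfl⟩ := d.ge.q.sp a
  have := Fact.mk o.1
  have h2 := (ZMod.intCast_zmod_eq_zero_iff_dvd _ l).2 (ov_dvd o (a := u ^ 2 + u * v + 2 * v ^ 2) (by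
    rw [← map_intCast (iz j), ← ge_nm d.ge]
    exact mem_below.1 (Ideal.mul_mem_right _ _ ha)))
  push_cast at h2
  obtain ⟨b, rfl⟩ := (ZMod.intCast_zmod_eq_zero_iff_dvd v l).1 (by_contra fun z =>
    ZMod.nonsquare_of_jacobiSym_eq_neg_one h1 ⟨(2 * u + v) / v, by
      push_cast
      field_simp
      linear_combination (-4) * h2⟩)
  have h3 : ((l * b : ℤ) * η : 𝓞 K) ∈ Ideal.span {(l : 𝓞 K)} :=
    Ideal.mem_span_singleton.2 ⟨b * η, by push_cast; ring⟩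
  obtain ⟨a, rfl⟩ := ov_dvd o (a := u) (by
    rw [← map_intCast (iz j), ← mem_below, ← Ideal.add_mem_iff_left _ ((Ideal.span_singleton_le_iff_mem
      _).2 (mem_below.2 (by rw [map_natCast]; exact o.2.2)) h3)]
    exact ha)
  exact add_mem (Ideal.mem_span_singleton.2 ⟨a, by push_cast; ring⟩) h3

end Dt

theorem sd_pm (n : ℤ) (g : GQ) : sd n g = 1 ∨ sd n g = -1 := by
  unfold sd
  split_ifs <;> simp

theorem half {G : Type} [AddCommGroup G] (f : G →+ G) (u : ℤ) (y : G) :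
    2 • (f (f y) + -(u * 1) • f y + ((2 : ℕ) : ℤ) • y) = f (f (2 • y)) - u • f (2 • y) + 2 • 2 • y := by
  simp only [map_nsmul]
  module

theorem ex_dt (hm : MT) {A B : ℤ} {π : ℂ} (h : IsLat Λ) (h2 : g2 Λ = -4 * A) (h3 : g3 Λ = -4 * B)
    (e : π ^ 2 - π + 2 = 0) (m : ∀ w ∈ Λ, 2 * π * w ∈ Λ) :
    ∃ (K : Type) (_ : Field K) (_ : NumberField K) (j : K →+* Qb) (η : 𝓞 K) (s : 𝓞 K →+* 𝓞 K)
      (M : Submodule ℤ ℂ) (ω : ℂ) (n : ℕ) (x y : ℤ), Dt j η s Λ M ω n ∧ Squarefree n ∧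
      JJ j (1 - (x + y * η)) = π ∧ x ^ 2 + x * y + 2 * y ^ 2 = 2 ∧ 2 * x + y = 1 := by
  obtain ⟨K, _, _, j, θ, hK, hθ, im⟩ := Fd.ex_K (δ := 7) (by norm_num)
  obtain ⟨η, s, q, e1, e2⟩ := Fd.ex_om hK (by norm_num : Nat.Prime 7).prime.squarefree (d := 1)
    (by norm_num) hθ im
  have e3 := congrArg s e1
  rw [map_mul, map_add, map_one, e2, map_ofNat] at e3
  push_cast at hθ
  have g : Fd.Ge j η s (-1) 2 := ⟨q, mul_left_cancel₀ two_ne_zero (by
    push_cast; linear_combination e1 + e3), mul_left_cancel₀ (pow_ne_zero 2 two_ne_zero) (by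
    push_cast; linear_combination 2 * s η * e1 + (1 + θ) * e3 - hθ)⟩
  have e4 := ge_eq g
  have k := two_rt (map_rt (JJ j) e4) e
  obtain ⟨M, ω, o⟩ := ex_ol q e4 h h2 h3 fun w hw => by
    rcases k with rfl | rfl
    · exact m w hw
    · exact mem_of_eq (sub_mem (add_mem hw hw) (m w hw)) (by ring)
  obtain ⟨n, hn, c⟩ := o.chr q e4
  rcases k with rfl | rfl
  · exact ⟨K, _, _, j, η, s, M, ω, n, 1, -1, ⟨hm, hK, g, o, c⟩, hn, by simp, rfl, rfl⟩
  · exact ⟨K, _, _, j, η, s, M, ω, n, 0, 1, ⟨hm, hK, g, o, c⟩, hn, by simp, rfl, rfl⟩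

end Ct

open Ct P004R.Mu in
/-- **the traces of Frobenius elements** -/
theorem cmt (hm : MT) : CMT := fun A B Λ P T z π h c => by
  obtain ⟨K, _, _, j, η, s, M, ω, n, x, y, d, hn, eπ, e1, e2⟩ :=
    ex_dt hm h.lat h.g2 h.g3 c.eq c.mul
  have U := un A B Λ h.lat h.g2 h.g3
  have e3 := ge_eq d.ge
  have qd (x y t ε : ℤ) (l : ℕ) (e : x ^ 2 + x * y + 2 * y ^ 2 = l) (e' : 2 * x + y = t)
      (hε : ε = 1 ∨ ε = -1) : (ε * (x + y * η) : 𝓞 K) ^ 2 + (-(ε * t) : ℤ) * (ε * (x + y * η)) +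
        (l : ℤ) = 0 := by
    rw [← e, ← e']
    rcases hε with rfl | rfl <;> push_cast <;> linear_combination y ^ 2 * e3
  have r0 : 1 - (x + y * η) ∉ below j P := fun a => c.unit _ eπ ⟨1, _, one_nm h.ov, a, one_mul _⟩
  have pr : (below j P).IsPrime := haveI := h.ov.2.1; Ideal.IsPrime.comap _
  have r1 : x + y * η ∈ below j P := (pr.mem_or_mem (show _ * _ ∈ _ by
    rw [show (1 - (x + y * η)) * (x + y * η) = ((2 : ℕ) : 𝓞 K) by
      have := qd x y 1 1 2 e1 e2 (.inl rfl)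
      push_cast at this ⊢
      linear_combination -this, mem_below, map_natCast]
    exact h.ov.2.2)).resolve_left r0
  have tz (m : ℕ) : ∃ a ∉ below j P, JJ j a * ((2 : ℕ) * z m) ∈ M :=
    let ⟨k, hk⟩ := c.tor m
    ⟨_, fun a => r0 (pr.mem_of_pow_mem k a), mem_of_eq (d.ol.le hk) (by
      rw [map_pow, eπ]; push_cast; ring)⟩
  have tu (m : ℕ) := (un_mul h.lat h.g2 h.g3 (h.un m) 2).1
  have n4 : n % 4 = 1 := mod_four h.ov hn fun g hg => by
    obtain ⟨σ, ψ, ε, x1, t, x2, x3⟩ := d.spl h.ov (by decide) e1 r1 (g := g) (k := 0)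
      (by simpa using (hg ·)) (x' := 1) (y' := 0) (by simp)
    by_contra a
    rw [sd, if_neg a, show J(2 * 1 + 0 | 7) = 1 by norm_num, mul_one] at x2
    obtain ⟨b, hb, x4⟩ := tz 4
    have x5 := U.2.2 _ _ _ _ _ (tu 4) x1 t.tr1
    have := pt d.ol h.g2 h.g3 x5 (tu 4) (tu 4) (a := 1) (b := 0)
      (mem_of_eq (x3 b hb _ x4) (by simp [x2]))
    rw [map_nsmul, h.ur 4 g hg, h.succ, one_zsmul, zero_zsmul, add_zero, ← two_nsmul, h.succ,
      h.succ] at this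
    exact h.one this
  have od : Odd n := Nat.odd_iff.2 (by omega)
  refine ⟨n, 2 * 7 * n * (4 * A ^ 3 + 27 * B ^ 2).natAbs, od, mul_ne_zero (mul_ne_zero (by decide)
    hn.ne_zero) (Int.natAbs_ne_zero.2 h.disc), fun l hl hS g hg t ht => ?_, fun φ hφ m => ?_⟩
  · have l2 : l ≠ 2 := fun a => hS (((a.dvd.mul_right 7).mul_right _).mul_right _)
    have l7 : l ≠ 7 := fun a => hS (((a.dvd.mul_left 2).mul_right _).mul_right _)
    have ln : ¬ (l : ℤ) ∣ n := fun a =>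
      hS (((Int.natCast_dvd_natCast.1 a).mul_left _).mul_right _)
    have lD : ¬ (l : ℤ) ∣ 2 * (4 * A ^ 3 + 27 * B ^ 2) := fun a =>
      ((Nat.prime_iff_prime_int.1 hl).dvd_or_dvd a).elim (fun b => l2
        ((Nat.prime_dvd_prime_iff_eq hl Nat.prime_two).1 (Int.natCast_dvd_natCast.1 b)))
        fun b => hS ((Int.natCast_dvd.1 b).mul_left _)
    have tr := fun u v k => trc (hq h.disc) hl lD hg (u := u) (v := v) k ht
    obtain ⟨Q, q1, q2, q3⟩ := hg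
    have o : Ov l Q := ⟨hl, q1, q2⟩
    have tw (m : ℕ) (y : Pt A B) (a : 2 ^ m • y = 0) : ∃ z, Un Λ z y ∧
        ∃ a ∉ below j Q, JJ j a * z ∈ M := by
      obtain ⟨z, hz⟩ := U.1 y
      refine ⟨z, hz, ((2 ^ m : ℕ) : 𝓞 K), fun b => l2 ((Nat.prime_dvd_prime_iff_eq hl
        Nat.prime_two).1 (hl.dvd_of_dvd_pow (n := m) (Int.natCast_dvd_natCast.1 (ov_dvd o ?_)))), ?_⟩
      · rwa [mem_below, map_natCast, ← Int.cast_natCast] at b
      · rw [map_natCast]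
        exact d.ol.le ((un_mul h.lat h.g2 h.g3 hz _).2 a)
    have sp (x y : ℤ) (e : x ^ 2 + x * y + 2 * y ^ 2 = l) (a : x + y * η ∈ below j Q) :
        t = J(l | n) * J(2 * x + y | 7) * (2 * x + y) := by
      obtain ⟨σ, ψ, ε, x1, x0, x2, x3⟩ := d.spl o l7 e a (g := g) (k := 1)
        (by simpa using q3) (pow_one _)
      have x4 := Int.isUnit_iff.1 (isUnit_of_mul_isUnit_left (x2 ▸ Int.isUnit_iff.2 (sd_pm n g)))
      have x5 := Int.isUnit_iff.1 (isUnit_of_mul_isUnit_right (x2 ▸ Int.isUnit_iff.2 (sd_pm n g)))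
      rw [tr _ _ fun m w hw => let ⟨z, a, b, hb, f⟩ := tw m w hw
          quad d.ol h.g2 h.g3 x1 x0 (x3 b hb) (qd x y _ ε l e rfl x4) f a,
        ← jacobiSym.quadratic_reciprocity_one_mod_four n4 (hl.odd_of_ne_two l2), nu_fb o l2 q3 ln,
        ← sd, ← x2]
      rcases x5 with a | a <;> rw [a] <;> ring
    refine ⟨fun u v e => ?_, fun a => ?_⟩
    · obtain ⟨w, rfl⟩ : ∃ w, u = 2 * w + v := by
        have : Even (u - v) := by
          have := congrArg Even e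
          simp only [eq_iff_iff, parity_simps] at this ⊢
          tauto
        exact this.elim fun w hw => ⟨w, by omega⟩
      have e4 : w ^ 2 + w * v + 2 * v ^ 2 = l := by linarith
      have pq : (below j Q).IsPrime := Ideal.IsPrime.comap _
      refine (pq.mem_or_mem (x := w + v * η) (y := (w + v : ℤ) + (-v : ℤ) * η) ?_).elim (sp w v e4)
        fun a => ?_
      · rw [show (w + v * η) * ((w + v : ℤ) + (-v : ℤ) * η) = ((l : ℤ) : 𝓞 K) by
          rw [← e4]; push_cast; linear_combination -v ^ 2 * e3, mem_below, map_intCast]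
        exact_mod_cast q2
      · rw [sp _ _ (by linarith) a, show 2 * (w + v) + -v = 2 * w + v by ring]
    · have hc := d.ine o l2 a
      obtain ⟨σ, ψ, ε, x1, x0, -, x3⟩ := d.act o l7 hc (g := g * g) (gk_of d.ge.q (by
        rw [mul_smul]
        rcases sm_rt (j := j) e3 g with b | b <;> simp [b, smul_sub])) (k := 1) (fun w => by
          rw [hc, Ideal.absNorm_span_natCast, RingOfIntegers.rank, d.iq.two, pow_one, mul_smul, sq,
            pow_mul]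
          have := Fact.mk hl
          have b := Q.add_mem (q3 (g • w)) (Ideal.mem_of_dvd _ (sub_dvd_pow_sub_pow _ _ l) (q3 w))
          rwa [sub_add_sub_cancel] at b) (x := l) (y := 0) (by simp)
      refine (tr 0 (-(ε * l)) fun m w hw => ?_).trans neg_zero
      obtain ⟨z, a, b, hb, f⟩ := tw m w hw
      rw [← P004M.TE.ga_mul]
      exact pt d.ol h.g2 h.g3 (U.2.2 _ _ _ _ _ a x1 x0.tr1) (U.1 _).choose_spec a
        (mem_of_eq (x3 b hb z f) (by simp; ring))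
  · obtain ⟨σ, ψ, ε, x1, x0, x2, x3⟩ := d.spl h.ov (by decide) e1 r1 (g := φ) (k := 1)
      (by simpa using (hφ ·)) (pow_one _)
    have x4 : ε = J(2 | n) := by
      rw [e2, jacobiSym.one_left, mul_one, sd] at x2
      simp only [fb_two h.ov (d := n) (by omega) hφ] at x2
      rw [x2, jacobiSym.at_two od, ZMod.χ₈_nat_eq_if_mod_eight]
      split_ifs <;> omega
    obtain ⟨b, hb, f⟩ := tz (m + 2)
    have := quad d.ol h.g2 h.g3 x1 x0 (x3 b hb) (qd x y 1 ε 2 e1 e2 (by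
      rw [e2, jacobiSym.one_left, mul_one] at x2
      exact x2 ▸ sd_pm n φ)) f (tu _)
    rwa [h.succ, half, h.succ, x4] at this

end Vale.Agent.P004F.Sp
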