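import Vale.Agent.P004F.Sp.TheA
import Vale.Agent.P004C.Wa.Thk
import Vale.Agent.P004N.H65.Fin
import Vale.Agent.P004N.H65.Smo
import Vale.Agent.P004N.H461.Cf
import Vale.Agent.P004N.H461.Al

/-! # P004F, row THE: the theta series of discriminant `-7` is an eigenform of odd level -/

open scoped Classical NumberTheorySymbols MatrixGroups ModularForm Real
open UpperHalfPlane CongruenceSubgroup

noncomputable section

namespace Vale.Agent.P004F.Sp.Th

open Vale.Agent.P022 P004N P004C.Wa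

theorem per : Per 7 f := by
  intro v w
  unfold f
  congr 1
  refine jacobiSym.mod_left' ?_
  simp only [tr, Prod.fst_add, Prod.snd_add, Prod.smul_fst, Prod.smul_snd, smul_eq_mul]
  push_cast
  omega

theorem f_smul (d : ℤ) (v : ℤ × ℤ) : f (d • v) = (J(d | 7) : ℤ) * f v := by
  unfold f
  rw [← Int.cast_mul, ← jacobiSym.mul_left]
  congr 2
  simp only [tr, Prod.smul_fst, Prod.smul_snd, smul_eq_mul]
  ring

/-- the cusp form -/
def θ (τ : ℍ) : ℂ := 2⁻¹ * th 1 1 2 7 1 f τ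

theorem jj_eq (γ : SL(2, ℤ)) (τ : ℍ) : jj γ τ = denom γ τ := by rw [ModularGroup.denom_apply, jj]

theorem s2 : S2 (7 * 7 ^ 2) θ where
  holo := (Tk.hol' (a := 1) (b := 1) (c := 2) (D := 7) one_pos (by norm_num) (by norm_num) 1
    (by norm_num) per).const_smul (2⁻¹ : ℂ)
  slash γ hγ := by
    funext τ
    have h := Tk.law (a := 1) (b := 1) (c := 2) (D := 7) one_pos (by decide) (by norm_num) 1
      (by norm_num) per hγ (f_smul _) τ
    have d : γ 0 0 * γ 1 1 - γ 0 1 * γ 1 0 = 1 := by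
      have := γ.det_coe
      rwa [Matrix.det_fin_two] at this
    obtain ⟨k, hk⟩ := (ZMod.intCast_zmod_eq_zero_iff_dvd _ _).1 (Gamma0_mem.1 hγ)
    have c : IsCoprime (γ 1 1) ((7 : ℕ) : ℤ) :=
      ⟨γ 0 0, -(γ 0 1 * 49 * k), by push_cast at hk ⊢; linear_combination d + γ 0 1 * hk⟩
    have j := jacobiSym.sq_one (Int.isCoprime_iff_gcd_eq_one.1 c)
    rw [ModularForm.SL_slash_apply, θ, θ, h, ← Int.cast_mul, ← sq, j, jj_eq]
    have := denom_ne_zero (γ : GL (Fin 2) ℝ) τ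
    rw [zpow_neg]
    field_simp
    simp
    ring
  zero γ := by
    obtain ⟨B, e, e0, h⟩ := Tk.decay (a := 1) (b := 1) (c := 2) (D := 7) one_pos (by norm_num)
      (by norm_num) (Tk.mem_V 1 (by norm_num) per) γ
    have t : Filter.Tendsto (fun τ : ℍ => B * Real.exp (-(e * τ.im))) atImInfty (nhds 0) := by
      have := (Real.tendsto_exp_neg_atTop_nhds_zero.comp
        ((Filter.tendsto_comap (f := UpperHalfPlane.im)).const_mul_atTop e0)).const_mul B
      rw [mul_zero] at this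
      exact this
    refine squeeze_zero_norm' ?_ t
    rw [Filter.Eventually, atImInfty_mem]
    refine ⟨1 / 2, fun τ hτ => ?_⟩
    have := h τ hτ
    have n : 0 < ‖denom (γ : GL (Fin 2) ℝ) τ‖ := norm_pos_iff.2 (denom_ne_zero _ τ)
    show ‖(θ ∣[(2 : ℤ)] γ) τ‖ ≤ _
    rw [ModularForm.SL_slash_apply, θ, norm_mul, norm_mul, norm_zpow, zpow_neg, zpow_ofNat,
      ← div_eq_mul_inv, div_le_iff₀ (by positivity), norm_inv, Complex.norm_ofNat]
    rw [jj_eq] at this
    nlinarith [norm_nonneg (th 1 1 2 7 1 f (γ • τ : ℍ))]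

theorem qe {c : ℕ → ℤ} (hc : ∀ n, S n = 2 * c n) : P004N.QE θ fun n => (c n : ℂ) := by
  intro z
  have h := (H964.summable_thT (a := 1) (b := 1) (c := 2) (D := 7) one_pos (by norm_num)
    (by norm_num) 1 (by norm_num) per (w := z) z.im_pos).hasSum
  have h2 := ((Equiv.sigmaFiberEquiv fun v : ℤ × ℤ => (Q v).toNat).hasSum_iff.2 h).sigma
    (g := fun n : ℕ => S n * Complex.exp (2 * π * Complex.I * n * z)) fun n => by
      have m : ∀ v, (Q v).toNat = n ↔ v ∈ T n := fun v => by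
        have := Q_nn v
        rw [mem_T]
        omega
      have := (T n).hasSum (thT 1 1 2 7 1 f z)
      have e : ∑ v ∈ T n, thT 1 1 2 7 1 f z v = S n * Complex.exp (2 * π * Complex.I * n * z) := by
        rw [S, Finset.sum_mul]
        refine Finset.sum_congr rfl fun v hv => ?_
        have q : Qf 1 1 2 v = n := mem_T.1 hv
        rw [thT, q, pow_one, F, Int.cast_natCast]
      rw [e] at this
      exact (Equiv.subtypeEquivRight m).hasSum_iff.2 this
  have h3 := h2.mul_left 2⁻¹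
  have e : (fun n : ℕ => 2⁻¹ * (S n * Complex.exp (2 * π * Complex.I * n * z))) =
      fun n : ℕ => (c n : ℂ) * Complex.exp (2 * π * Complex.I * n * z) := by
    funext n
    rw [hc]
    ring
  rw [e] at h3
  exact h3

theorem nf {N : ℕ} {G : ℍ → ℂ} {a : ℕ → ℤ} (h : RN N G a) :
    ∃ ε, NF N G (fun n => (a n : ℝ)) ε := by
  obtain ⟨ε, e1, e2⟩ := H461.pfAL N G a h N 1 (mul_one N) (Nat.coprime_one_right N)
  have c := H461.pfCf N G a h
  refine ⟨ε, h.pos, h.s2, by simpa using h.qe, by simp [h.zero], by simp [h.one],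
    fun p hp hN n => ?_, fun p hp hN n => ?_, fun p hp hN h2 => by exact_mod_cast c.bad1 p hp hN h2,
    fun p hp hN => by exact_mod_cast c.bad2 p hp hN, e1, e2⟩
  · have := h.te p hp hN n
    beta_reduce at this
    split_ifs at this ⊢ <;> exact_mod_cast this
  · by_cases n0 : n = 0
    · simp [n0, h.zero]
    obtain ⟨k, m, hm, rfl⟩ := Nat.exists_eq_pow_mul_and_not_dvd n0 p hp.ne_one
    have cp := fun k => Nat.Coprime.pow_left k ((Nat.Prime.coprime_iff_not_dvd hp).2 hm)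
    rw [← mul_assoc, ← pow_succ', c.mul _ _ (cp _), c.mul _ _ (cp _), c.bad p hp hN]
    push_cast
    ring

/-- the Jacobi symbol as a character -/
def ch (D : ℕ) [NeZero D] : MulChar (ZMod D) ℤ where
  toFun x := J(x.val | D)
  map_one' := by
    rw [jacobiSym.mod_left' (a₂ := 1), jacobiSym.one_left]
    rw [ZMod.val_one_eq_one_mod]
    simp
  map_mul' x y := by
    rw [← jacobiSym.mul_left, ZMod.val_mul]
    refine jacobiSym.mod_left' ?_
    simp
  map_nonunit' x hx := by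
    rw [jacobiSym.eq_zero_iff_not_coprime, Int.gcd_natCast_natCast]
    intro h
    apply hx
    rw [← ZMod.natCast_zmod_val x]
    exact (ZMod.isUnit_iff_coprime _ _).2 h

theorem ch_nat (D : ℕ) [NeZero D] (n : ℕ) : ch D (n : ZMod D) = J(n | D) := by
  show J((n : ZMod D).val | D) = _
  rw [ZMod.val_natCast]
  refine jacobiSym.mod_left' ?_
  simp

theorem the0 {N : ℕ} {G : ℍ → ℂ} {a : ℕ → ℤ} {D S : ℕ} (h : RN N G a) (hD : Odd D) (hS : S ≠ 0)
    (H : ∀ p : ℕ, p.Prime → ¬ p ∣ S →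
      (∀ t y : ℤ, 4 * (p : ℤ) = t ^ 2 + 7 * y ^ 2 → a p = J(p | D) * J(t | 7) * t) ∧
        (J(p | 7) = -1 → a p = 0)) : ¬ 2 ∣ N ∧ a 2 = J(2 | D) := by
  have := NeZero.mk hD.pos.ne'
  obtain ⟨c, hc, c1, c2, hp⟩ := coef
  have n7 : ∀ p : ℕ, ¬ p ∣ 7 * 7 ^ 2 → p ≠ 7 := by
    rintro p h rfl
    exact h (dvd_mul_right _ _)
  obtain ⟨M, g, b, ε, hN, h1, h2⟩ := pfNewf (7 * 7 ^ 2) θ c (by norm_num) s2 (qe hc) c1
    (fun p pp q => (hp p pp (n7 p q)).1) D (ch D) hD.pos fun x => jacobiSym.trichotomy _ _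
  obtain ⟨ε', hG⟩ := nf h
  obtain ⟨rfl, -, e, -⟩ := H65.smo hG hN (S := S * (7 * 7 ^ 2 * D))
    (mul_ne_zero hS (mul_ne_zero (by norm_num) hD.pos.ne')) fun p pp q => by
      have q2 : ¬ p ∣ 7 * 7 ^ 2 * D := fun d => q (d.mul_left _)
      obtain ⟨u, v⟩ := H p pp fun d => q (d.mul_right _)
      rw [h2 p ((Nat.Prime.coprime_iff_not_dvd pp).2 q2), ch_nat]
      rcases (hp p pp (n7 p fun d => q2 (d.mul_right _))).2 with ⟨r, s⟩ | ⟨t, y, r, s⟩
      · simp [v r, s]
      · simp only [u t y r, s]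
        push_cast
        ring
  have o : ¬ 2 ∣ 7 * 7 ^ 2 * D :=
    Odd.not_two_dvd_nat ((show Odd (7 * 7 ^ 2) by decide).mul hD)
  refine ⟨fun d => o (h1 2 Nat.prime_two d), ?_⟩
  have := e 2
  rw [h2 2 ((Nat.Prime.coprime_iff_not_dvd Nat.prime_two).2 o), ch_nat, c2] at this
  simpa using this

end Vale.Agent.P004F.Sp.Th
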