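import Vale.Agent.P004F.Sp.St
import Vale.Agent.P004F.Sp.TheB

/-! # P004F, row THE -/

namespace Vale.Agent.P004F.Sp

theorem the : THE := fun _ _ _ _ _ h hD hS H => Th.the0 h hD hS H

end Vale.Agent.P004F.Sp
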