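import Vale.Agent.P004F.Sp.St
import Vale.Agent.P004F.Fd.Fld
import Vale.Agent.P004K.Hg.Un
import Vale.Agent.P004R.Mu0

/-! # P004F, row CMT: the lattice and the quadratic character -/

set_option autoImplicit false
set_option linter.all false

open NumberField
open scoped Classical NumberTheorySymbols

noncomputable section

namespace Vale.Agent.P004F.Sp.Ct

open Vale.Agent.P022 Vale.Agent.P004K P004K.Rc P027H P027M.M
open P004M.TE (Pt ga)
open P004S (nu)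

variable {O : Type} [CommRing O] {J : O →+* ℂ} {η : O} {s : O →+* O} {Λ M : Submodule ℤ ℂ}
  {ω π : ℂ} {σ : ℂ ≃+* ℂ} {ψ : ℂ → ℂ}

/-- the covering radius -/
theorem cov (e : π ^ 2 - π + 2 = 0) (x : ℂ) : ∃ u v : ℤ, ‖x - (u + v * π)‖ < 1 := by
  have e1 := congrArg Complex.re e
  have e2 := congrArg Complex.im e
  simp [pow_two] at e1 e2
  have i0 : π.im ≠ 0 := fun z => by
    rw [z] at e1
    nlinarith [sq_nonneg (π.re - 1 / 2)]
  have r : π.re = 1 / 2 := mul_right_cancel₀ i0 (by linarith)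
  have h1 := abs_le.1 (abs_sub_round (x.im / π.im))
  have h3 := div_mul_cancel₀ x.im i0
  generalize round (x.im / π.im) = v at h1
  generalize x.im / π.im = y at h1 h3
  have h2 := abs_le.1 (abs_sub_round (x.re - v / 2))
  generalize round (x.re - v / 2) = u at h2
  refine ⟨u, v, ?_⟩
  rw [← sq_lt_one_iff₀ (norm_nonneg _), Complex.sq_norm, Complex.normSq_apply]
  simp only [Complex.sub_re, Complex.add_re, Complex.mul_re, Complex.intCast_re, Complex.intCast_im,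
    Complex.sub_im, Complex.add_im, Complex.mul_im, r, ← h3]
  have h4 : (y - v) ^ 2 ≤ 1 / 4 := by nlinarith
  have h5 : (x.re - v / 2 - u) ^ 2 ≤ 1 / 4 := by nlinarith
  have h6 : π.im ^ 2 = 7 / 4 := by rw [r] at e1; linarith
  have h7 : ((y - v) * π.im) ^ 2 ≤ 7 / 16 := by rw [mul_pow, h6]; linarith
  nlinarith

/-- class number one -/
theorem gen (e : π ^ 2 - π + 2 = 0) (h : IsLat M) (hm : ∀ z ∈ M, π * z ∈ M) :
    ∃ ω ∈ M, ω ≠ 0 ∧ ∀ z ∈ M, ∃ u v : ℤ, z = (u + v * π) * ω := by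
  obtain ⟨L, rfl⟩ := h
  obtain ⟨ω, ⟨⟨h1, h2⟩, h3⟩, k⟩ := Set.exists_min_image _ (fun z => ‖z‖)
    ((Metric.finite_isBounded_inter_isClosed (K := Metric.closedBall 0 ‖L.ω₁‖)
      (@DiscreteTopology.isDiscrete _ _ _ (inferInstanceAs (DiscreteTopology L.lattice)))
      Metric.isBounded_closedBall L.isClosed_lattice).diff (t := {0}))
    ⟨L.ω₁, ⟨by simp, L.ω₁_mem_lattice⟩, L.indep.ne_zero 0⟩
  refine ⟨ω, h2, h3, fun z hz => ?_⟩
  obtain ⟨u, v, l⟩ := cov e (z / ω)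
  refine ⟨u, v, by_contra fun n => ?_⟩
  have w0 := norm_pos_iff.2 h3
  have l2 : ‖z - (u + v * π) * ω‖ < ‖ω‖ := by
    rw [← div_mul_cancel₀ z h3, ← sub_mul, norm_mul]
    exact mul_lt_of_lt_one_left w0 l
  exact l2.not_ge (k _ ⟨⟨mem_closedBall_zero_iff.2 (l2.le.trans (mem_closedBall_zero_iff.1 h1)),
    mem_of_eq (sub_mem hz (add_mem (int_mul_mem u h2) (int_mul_mem v (hm _ h2)))) (by ring)⟩,
    sub_ne_zero.2 n⟩)

/-- the lattice with complex multiplication by the maximal order -/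
structure Ol (J : O →+* ℂ) (Λ M : Submodule ℤ ℂ) (ω : ℂ) : Prop where
  le : Λ ≤ M
  two : ∀ z ∈ M, 2 * z ∈ Λ
  ne : ω ≠ 0
  mem : ∀ z, z ∈ M ↔ ∃ a, z = J a * ω
  tr : ∀ σ, ∃ ψ, Tq σ 1 Λ Λ ψ ∧ Tq σ 1 M M ψ

theorem two_rt {F : Type} [CommRing F] [IsDomain F] {x y : F} (h : x ^ 2 - x + 2 = 0)
    (h' : y ^ 2 - y + 2 = 0) : y = x ∨ y = 1 - x :=
  (mul_eq_zero.1 (show (y - x) * (y - (1 - x)) = 0 by linear_combination h' - h)).imp
    sub_eq_zero.1 sub_eq_zero.1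

theorem map_rt {F F' : Type} [CommRing F] [CommRing F'] (f : F →+* F') {x : F}
    (h : x ^ 2 - x + 2 = 0) : f x ^ 2 - f x + 2 = 0 := by
  have := congrArg f h
  rwa [map_add, map_sub, map_pow, map_ofNat, map_zero] at this

theorem ex_ol (q : Qd J η s) (e : η ^ 2 - η + 2 = 0) (h : IsLat Λ) {A B : ℤ} (h2 : g2 Λ = -4 * A)
    (h3 : g3 Λ = -4 * B) (hm : ∀ w ∈ Λ, 2 * J η * w ∈ Λ) : ∃ M ω, Ol J Λ M ω := by
  have e' := map_rt J e
  obtain ⟨M, hM⟩ : ∃ M : Submodule ℤ ℂ, ∀ z, z ∈ M ↔ 2 * z ∈ Λ ∧ 2 * J η * z ∈ Λ :=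
    ⟨Λ.comap (LinearMap.mulLeft ℤ 2) ⊓ Λ.comap (LinearMap.mulLeft ℤ (2 * J η)), fun _ => Iff.rfl⟩
  have le : Λ ≤ M := fun z hz => (hM z).2 ⟨by simpa using nat_mul_mem 2 hz, hm z hz⟩
  have l : IsLat M := h.of_between le two_pos fun z hz => by simpa using ((hM z).1 hz).1
  have m (z) (hz : z ∈ M) : J η * z ∈ M := by
    rw [hM] at hz ⊢
    exact ⟨mem_of_eq hz.2 (by ring), mem_of_eq (sub_mem hz.2 (add_mem hz.1 hz.1))
      (by linear_combination 2 * z * e')⟩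
  obtain ⟨ω, w, w0, k⟩ := gen e' l m
  refine ⟨M, ω, le, fun z hz => ((hM z).1 hz).1, w0, fun z => ⟨fun hz => ?_, ?_⟩, fun σ => ?_⟩
  · obtain ⟨u, v, rfl⟩ := k z hz
    exact ⟨u + v * η, by simp⟩
  · rintro ⟨a, rfl⟩
    obtain ⟨u, v, rfl⟩ := q.sp a
    exact mem_of_eq (add_mem (int_mul_mem u w) (int_mul_mem v (m _ w))) (by simp; ring)
  obtain ⟨Λ', ψ, t⟩ := h.exists_tr σ
  obtain rfl : Λ' = Λ := t.lat'.ext_g h (by rw [t.g23.1, h2]; simp [map_ofNat])
    (by rw [t.g23.2, h3]; simp [map_ofNat])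
  have t := tq_tr t
  have t2 (z) : 2 * ψ z ∈ Λ' ↔ 2 * z ∈ Λ' := by
    have := t.int 2 z
    push_cast at this
    rw [← t.mem (2 * z)]
    exact ⟨fun a => mem_of_eq (add_mem this a) (by ring), fun a => mem_of_eq (sub_mem a this) (by ring)⟩
  have k (z) : ψ z ∈ M ↔ z ∈ M := by
    have c := (t.tp.cm hm).2 z
    rw [map_mul, map_ofNat] at c
    rw [hM, hM, ← t2 z, ← t.mem (2 * J η * z)]
    refine and_congr_right fun a => ?_
    rcases two_rt e' (map_rt (σ : ℂ →+* ℂ) e') with b | b <;> rw [RingHom.coe_coe] at b <;>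
      rw [b] at c
    · exact ⟨fun a => mem_of_eq (add_mem c a) (by ring), fun a => mem_of_eq (sub_mem a c) (by ring)⟩
    · exact ⟨fun d => mem_of_eq (add_mem c (sub_mem a d)) (by ring),
        fun d => mem_of_eq (add_mem c (sub_mem a d)) (by ring)⟩
  obtain ⟨N, a, b⟩ := t.sup le l
  refine ⟨ψ, t, ?_⟩
  rwa [show N = M from Submodule.ext fun z' => by
    obtain ⟨z, hz⟩ := t.surj z'
    exact ⟨fun d => mem_of_eq (sub_mem ((k z).2 ((b.mem z).1 (mem_of_eq (add_mem (a hz) d)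
      (by ring)))) (le hz)) (by ring), fun d => mem_of_eq (sub_mem ((b.mem z).2 ((k z).1
      (mem_of_eq (add_mem (le hz) d) (by ring)))) (a hz)) (by ring)⟩] at b

namespace Ol

variable (h : Ol J Λ M ω)
include h

theorem lat : IsLat Λ := (h.tr 1).choose_spec.1.lat

theorem lat' : IsLat M := (h.tr 1).choose_spec.2.lat

theorem mul (a : O) {z : ℂ} (hz : z ∈ M) : J a * z ∈ M := by
  obtain ⟨b, rfl⟩ := (h.mem z).1 hz
  exact (h.mem _).2 ⟨a * b, by rw [map_mul, mul_assoc]⟩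

theorem om : ω ∈ M := (h.mem _).2 ⟨1, by simp⟩

theorem unit (q : Qd J η s) (hu : ∀ u : Oˣ, u = 1 ∨ u = -1) {c : ℂ} (k : Hom c M M) :
    ∃ ε : ℤ, (ε = 1 ∨ ε = -1) ∧ c = ε := by
  obtain ⟨a, e⟩ := (h.mem _).1 ((k.2 _).1 h.om)
  obtain ⟨b, e'⟩ := (h.mem _).1 ((k.symm.2 _).1 h.om)
  have e1 := mul_right_cancel₀ h.ne e
  have e2 : a * b = 1 := q.inj (by
    rw [map_mul, ← e1, ← mul_right_cancel₀ h.ne e', map_one, mul_inv_cancel₀ k.1])
  rcases hu ⟨a, b, e2, mul_comm a b ▸ e2⟩ with d | d <;> obtain rfl : a = _ := congrArg Units.val d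
  · exact ⟨1, .inl rfl, by simpa using e1⟩
  · exact ⟨-1, .inr rfl, by simpa using e1⟩

end Ol

/-- the product over the squares modulo seven -/
theorem sev {f : ℤ → ℂ} (h1 : ∀ a b, 7 ∣ a - b → f a = f b) (h2 : ∀ a b, 7 ∣ a + b → f a = -f b)
    {m : ℤ} (hm : ¬ 7 ∣ m) : f (1 * m) * f (2 * m) * f (4 * m) = J(m | 7) * (f 1 * f 2 * f 4) := by
  rw [jacobiSym.mod_left]
  have : m % (7 : ℕ) = 1 ∨ m % (7 : ℕ) = 2 ∨ m % (7 : ℕ) = 3 ∨ m % (7 : ℕ) = 4 ∨
    m % (7 : ℕ) = 5 ∨ m % (7 : ℕ) = 6 := by omega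
  rcases this with e | e | e | e | e | e <;> rw [e]
  · rw [h1 _ 1 (by omega), h1 (2 * m) 2 (by omega), h1 (4 * m) 4 (by omega)]
    norm_num
  · rw [h1 _ 2 (by omega), h1 (2 * m) 4 (by omega), h1 (4 * m) 1 (by omega)]
    norm_num
    ring
  · rw [h2 _ 4 (by omega), h2 (2 * m) 1 (by omega), h2 (4 * m) 2 (by omega)]
    norm_num
    ring
  · rw [h1 _ 4 (by omega), h1 (2 * m) 1 (by omega), h1 (4 * m) 2 (by omega)]
    norm_num
    ring
  · rw [h2 _ 2 (by omega), h2 (2 * m) 4 (by omega), h2 (4 * m) 1 (by omega)]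
    norm_num
    ring
  · rw [h2 _ 1 (by omega), h2 (2 * m) 2 (by omega), h2 (4 * m) 4 (by omega)]
    norm_num

/-- the quadratic character cut out by the points killed by `√-7` -/
def Ch (π : ℂ) (M : Submodule ℤ ℂ) (ω : ℂ) (n : ℕ) : Prop := ∀ σ g ψ (m : ℤ), Ex σ g → σ π = π →
  Tq σ 1 M M ψ → ψ (ω / (2 * π - 1)) - m * (ω / (2 * π - 1)) ∈ M → J(m | 7) = sd n g

theorem th_sq (e : π ^ 2 - π + 2 = 0) : (2 * π - 1) ^ 2 = -7 := by linear_combination 4 * e

theorem th_ne (e : π ^ 2 - π + 2 = 0) : 2 * π - 1 ≠ 0 := fun z => by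
  have := th_sq e
  rw [z] at this
  norm_num at this

theorem Ol.red (h : Ol J Λ M ω) (e : η ^ 2 - η + 2 = 0) (x y : ℤ) :
    J (x + y * η) * (ω / (2 * J η - 1)) - (x + 4 * y : ℤ) * (ω / (2 * J η - 1)) ∈ M := by
  have e' := map_rt J e
  have := mul_div_cancel₀ ω (th_ne e')
  generalize ω / (2 * J η - 1) = w at this
  refine mem_of_eq (h.mul (y * η) h.om) ?_
  simp only [map_add, map_mul, map_intCast]
  push_cast
  linear_combination y * J η * this - 2 * y * w * e'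

theorem Ol.chr (h : Ol J Λ M ω) (q : Qd J η s) (e : η ^ 2 - η + 2 = 0) :
    ∃ n : ℕ, Squarefree n ∧ Ch (J η) M ω n := by
  have e' := map_rt J e
  have t0 := th_ne e'
  have t2 := th_sq e'
  have rd := h.red e
  unfold Ch
  generalize hθ : 2 * J η - 1 = θ at t0 t2 rd
  have w1 : θ * (ω / θ) = ω := mul_div_cancel₀ _ t0
  generalize ω / θ = w at w1 rd
  have w7 (k : ℤ) : k * w ∈ M ↔ 7 ∣ k := by
    refine ⟨fun a => ?_, ?_⟩
    · obtain ⟨a, ha⟩ := (h.mem _).1 a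
      obtain ⟨u, v, rfl⟩ := q.sp a
      have := q.ext (u := k) (v := 0) (u' := -u - 4 * v) (v' := 2 * u + v) (q.inj (by
        refine mul_right_cancel₀ h.ne ?_
        simp only [map_add, map_mul, map_intCast] at ha ⊢
        push_cast
        linear_combination θ * ha - k * w1 - (u + v * J η) * ω * hθ + 2 * v * ω * e'))
      omega
    · rintro ⟨k, rfl⟩
      refine mem_of_eq (h.mul (k * (1 - 2 * η)) h.om) ?_
      simp only [map_sub, map_mul, map_intCast, map_one, map_ofNat]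
      push_cast
      linear_combination k * w * t2 - k * θ * w1 + k * ω * hθ
  have l := h.lat'
  have sv {m : ℤ} := sev (f := fun k => dwp M (k * w)) (m := m)
    (fun a b d => l.dwp_congr (mem_of_eq ((w7 _).2 d) (by push_cast; ring)))
    fun a b d => l.dwp_congr' (mem_of_eq ((w7 _).2 d) (by push_cast; ring))
  have nz (k : ℤ) (hk : ¬ 7 ∣ k) : dwp M (k * w) ≠ 0 := fun z => hk (by
    have := (w7 (2 * k)).1 (mem_of_eq ((l.dwp_eq_zero (mt (w7 k).1 hk)).1 z) (by push_cast; ring))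
    omega)
  have u0 := mul_ne_zero (mul_ne_zero (nz 1 (by decide)) (nz 2 (by decide))) (nz 4 (by decide))
  have act (σ ψ) (m : ℤ) (t : Tq σ 1 M M ψ) (a : ψ w - m * w ∈ M) := by
    have m7 : ¬ 7 ∣ m := fun d => absurd ((w7 1).1 (by
      simpa using (t.mem w).1 (mem_of_eq (add_mem a ((w7 m).2 d)) (by ring)))) (by decide)
    have k (k : ℤ) : dwp M ((k * m : ℤ) * w) = σ (dwp M (k * w)) := by
      rw [← one_mul (σ _), ← one_pow 3, ← t.dwp]
      exact l.dwp_congr (mem_of_eq (neg_mem (add_mem (t.int k w) (int_mul_mem k a)))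
        (by push_cast; ring))
    have := sv m7
    simp only [k, ← map_mul] at this
    exact And.intro this (jacobiSym.eq_one_or_neg_one (a := m) (b := 7) (Int.isCoprime_iff_gcd_eq_one.1
      ((Int.prime_iff_natAbs_prime.2 (by norm_num) : Prime (7 : ℤ)).irreducible.coprime_iff_not_dvd.2
        m7).symm))
  generalize dwp M ((1 : ℤ) * w) * dwp M ((2 : ℤ) * w) * dwp M ((4 : ℤ) * w) = u at u0 act
  obtain ⟨r, hr⟩ := rat_of_fixed (w := u ^ 2) fun σ => by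
    obtain ⟨ψ, -, t⟩ := h.tr σ
    have c := (t.tp.cm (c := θ) fun z hz => by
      simpa [hθ, map_ofNat] using h.mul (2 * η - 1) hz).2 w
    have c1 : θ * ψ w ∈ M := by
      have := sub_mem ((t.mem _).2 (w1 ▸ h.om)) c
      rcases sq_eq_sq_iff_eq_or_eq_neg.1 (show σ θ ^ 2 = θ ^ 2 by
        rw [← map_pow, t2, map_neg, map_ofNat]) with b | b <;> rw [b] at this
      · exact mem_of_eq this (by ring)
      · exact mem_of_eq (neg_mem this) (by ring)
    obtain ⟨a, ha⟩ := (h.mem _).1 c1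
    obtain ⟨x, y, rfl⟩ := q.sp a
    obtain ⟨a1, a2⟩ := act σ ψ (x + 4 * y) t (mem_of_eq (rd x y) (by
      rw [mul_left_cancel₀ t0 (show θ * ψ w = θ * (J (x + y * η) * w) by
        linear_combination ha - J (x + y * η) * w1)]))
    rw [map_pow, a1]
    rcases a2 with b | b <;> simp [b]
  obtain ⟨v, r, v0, r0, hr, hv⟩ : ∃ (v : ℂ) (r : ℚ), v ≠ 0 ∧ 0 < r ∧ v ^ 2 = r ∧
      ∀ (σ : ℂ ≃+* ℂ) (c : ℂ), σ θ = θ → σ u = c * u → σ v = c * v := by
    rcases lt_trichotomy r 0 with a | rfl | a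
    · exact ⟨θ * u, -7 * r, mul_ne_zero t0 u0, by linarith, by rw [mul_pow, t2, hr]; simp,
        fun σ c b d => by rw [map_mul, b, d]; ring⟩
    · exact absurd (pow_eq_zero_iff two_ne_zero |>.1 (hr.trans Rat.cast_zero)) u0
    · exact ⟨u, r, u0, a, hr, fun _ _ _ d => d⟩
  obtain ⟨n, b, e1, hn⟩ := Nat.sq_mul_squarefree (r.num.natAbs * r.den)
  have e2 : (b : ℂ) ^ 2 * n = (r.den * v) ^ 2 := by
    have := congrArg (fun k : ℕ => ((k : ℤ) : ℂ)) e1
    simp only [Nat.cast_mul, Int.natAbs_of_nonneg (Rat.num_pos.2 r0).le] at this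
    push_cast at this
    rw [this, mul_pow, hr, ← Rat.cast_intCast, ← Rat.mul_den_eq_num]
    push_cast
    ring
  have b0 : (b : ℂ) ≠ 0 := fun z => by
    rw [z] at e2
    exact pow_ne_zero 2 (mul_ne_zero (Nat.cast_ne_zero.2 r.den_nz) v0) (by rw [← e2]; ring)
  obtain ⟨a, ha⟩ := P004S.ex_sqrt (n : ℤ)
  obtain ⟨c, hc⟩ : ∃ c : ℚ, io a = c * v := by
    have := congrArg io ha
    rw [map_pow, map_intCast, Int.cast_natCast] at this
    rcases sq_eq_sq_iff_eq_or_eq_neg.1 (show io a ^ 2 = (r.den / b * v) ^ 2 by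
      rw [this]; field_simp; linear_combination e2) with d | d
    · exact ⟨r.den / b, by rw [d]; simp⟩
    · exact ⟨-(r.den / b), by rw [d]; simp⟩
  refine ⟨n, hn, fun σ g ψ m x f t k => ?_⟩
  obtain ⟨a1, a2⟩ := act σ ψ m t k
  have a3 : io (g a) = J(m | 7) * io a := by
    rw [← x, hc, map_mul, map_ratCast, hv σ _ (by rw [← hθ]; simp [f, map_ofNat]) a1]
    ring
  have a0 : a ≠ 0 := by
    rintro rfl
    exact hn.ne_zero (by exact_mod_cast ha.symm.trans (zero_pow two_ne_zero))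
  rw [sd]
  simp only [P004S.nu_eq_zero ha]
  rcases a2 with d | d <;> rw [d] at a3 ⊢
  · rw [if_pos (P004K.io_inj (by simpa using a3))]
  · rw [if_neg fun z => a0 (P004K.io_inj ?_)]
    rw [z] at a3
    push_cast at a3
    rw [map_zero]
    linear_combination a3 / 2

end Vale.Agent.P004F.Sp.Ct
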