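import Mathlib.RingTheory.Valuation.Basic
import Mathlib.Algebra.Field.Subfield.Basic
import Mathlib.Tactic.LinearCombination
import Mathlib.Tactic.FieldSimp

/-! # P004F, block SPL: valuations along the arithmetic-geometric mean -/

set_option linter.all false

namespace Vale.Agent.P004F.Sp.Hl

variable {F : Type} [Field F] [CharZero F]

/-- the doubling relation on `y² = x ((x - 1)² + s x)` -/
def R (s η ζ : F) : Prop := ζ * (4 * η * ((η - 1) ^ 2 + s * η)) = (η ^ 2 - 1) ^ 2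

/-- the isogeny with kernel `(0, 0)` -/
def ph (σ η : F) : F := (η - 1) ^ 2 / (2 * σ * η)

/-- the next parameter -/
def nx (σ : F) : F := (σ + 2) ^ 2 / (2 * σ)

theorem psi {σ η ζ : F} (hσ : σ ≠ 0) (hη : η ≠ 0) (h : R (σ ^ 2) η ζ) :
    ζ * (2 * ph σ η + σ) = ph σ η * (σ * ph σ η + 2) := by
  unfold ph
  unfold R at h
  field_simp
  linear_combination h

theorem hom {σ t ζ : F} (hσ : σ ≠ 0) (h : ζ * (2 * t + σ) = t * (σ * t + 2)) :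
    (ζ - 1) ^ 2 * (4 * t * ((t - 1) ^ 2 + nx σ * t)) = 2 * σ * ζ * (t ^ 2 - 1) ^ 2 := by
  have e1 : 2 * σ * ((t - 1) ^ 2 + nx σ * t) = (2 * t + σ) * (σ * t + 2) := by
    unfold nx; field_simp; ring
  have e2 : (ζ - 1) * (2 * t + σ) = σ * (t ^ 2 - 1) := by linear_combination h
  refine mul_left_cancel₀ (mul_ne_zero two_ne_zero hσ) ?_
  linear_combination (ζ - 1) ^ 2 * 4 * t * e1 - 4 * (ζ - 1) ^ 2 * (2 * t + σ) * h +
    4 * ζ * ((ζ - 1) * (2 * t + σ) + σ * (t ^ 2 - 1)) * e2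

/-- a tower with coordinates in `K` -/
def Dt (K : Subfield F) (s : F) : Prop := s ≠ 0 ∧ s ≠ 4 ∧ ∃ θ : ℕ → F,
  (∀ n, θ n ∈ K ∧ θ n ≠ 0) ∧ θ 0 ^ 2 = 1 ∧ ∀ n, R s (θ (n + 1) ^ 2) (θ n ^ 2)

variable {K : Subfield F}

theorem step {s : F} (h : Dt K s) : ∃ σ ∈ K, ∃ ρ ∈ K, ∃ τ ∈ K, σ ≠ 0 ∧ σ + 2 ≠ 0 ∧ s = σ ^ 2 ∧
    2 * σ = ρ ^ 2 ∧ σ * (σ + 2) = τ ^ 2 ∧ Dt K (nx σ) := by
  obtain ⟨s0, s4, θ, hθ, h0, hR⟩ := h
  have two : (2 : F) ∈ K := by exact_mod_cast natCast_mem K 2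
  have m : ∀ n, θ n - (θ n)⁻¹ ∈ K := fun n => sub_mem (hθ n).1 (inv_mem (hθ n).1)
  have z : ∀ n, θ (n + 1) - (θ (n + 1))⁻¹ ≠ 0 := fun n e => by
    have h1 := (hθ (n + 1)).2
    have h2 : θ (n + 1) ^ 2 = 1 := by field_simp at e; linear_combination e
    have h3 := hR n
    rw [R, h2] at h3
    exact mul_ne_zero (pow_ne_zero 2 (hθ n).2) s0 (by linear_combination h3 / 4)
  obtain ⟨σ, hσ⟩ : ∃ σ, σ = (θ 1 - (θ 1)⁻¹) ^ 2 / 2 := ⟨_, rfl⟩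
  have σ0 : σ ≠ 0 := hσ ▸ div_ne_zero (pow_ne_zero 2 (z 0)) two_ne_zero
  have h1 := (hθ 1).2
  have hs : s = σ ^ 2 := by
    have h3 := hR 0
    rw [R, h0, zero_add] at h3
    rw [hσ]
    field_simp
    linear_combination h3
  have e2 : 2 * σ = (θ 1 - (θ 1)⁻¹) ^ 2 := by rw [hσ]; ring
  have q : ∀ n, ((θ (n + 1) - (θ (n + 1))⁻¹) / (θ 1 - (θ 1)⁻¹)) ^ 2 = ph σ (θ (n + 1) ^ 2) :=
    fun n => by
    have := (hθ (n + 1)).2
    rw [div_pow, ← e2, ph]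
    field_simp
  have a2 : σ + 2 ≠ 0 := fun e => s4 (by rw [hs]; linear_combination (σ - 2) * e)
  have a3 : σ - 2 ≠ 0 := fun e => s4 (by rw [hs]; linear_combination (σ + 2) * e)
  refine ⟨σ, hσ ▸ div_mem (pow_mem (m 1) 2) two, _, m 1, (θ 1 ^ 2 - (θ 1 ^ 2)⁻¹) / 2,
    div_mem (sub_mem (pow_mem (hθ 1).1 2) (inv_mem (pow_mem (hθ 1).1 2))) two, σ0, a2, hs, e2,
    by rw [hσ]; field_simp; ring, div_ne_zero (pow_ne_zero 2 a2) (mul_ne_zero two_ne_zero σ0),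
    fun e => pow_ne_zero 2 a3 ?_, fun n => (θ (n + 1) - (θ (n + 1))⁻¹) / (θ 1 - (θ 1)⁻¹),
    fun n => ⟨div_mem (m _) (m 1), div_ne_zero (z n) (z 0)⟩,
    (congrArg (· ^ 2) (div_self (z 0))).trans (one_pow 2), fun n => ?_⟩
  · rw [nx, div_eq_iff (mul_ne_zero two_ne_zero σ0)] at e
    linear_combination e
  · rw [q, q, R]
    have h2 := mul_ne_zero (mul_ne_zero two_ne_zero σ0) (pow_ne_zero 2 (hθ (n + 1)).2)
    refine mul_left_cancel₀ h2 ?_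
    rw [← hom σ0 (psi σ0 (pow_ne_zero 2 (hθ (n + 1 + 1)).2) (hs ▸ hR (n + 1))), ← mul_assoc, ph,
      mul_div_cancel₀ _ h2]

variable {Γ : Type} [LinearOrderedCommGroupWithZero Γ] {v : Valuation F Γ}

/-- `2` is a uniformiser of `K` -/
structure Ds (v : Valuation F Γ) (K : Subfield F) : Prop where
  lt : v 2 < 1
  ds : ∀ a ∈ K, a ≠ 0 → ∃ n : ℤ, v a = v 2 ^ n

theorem p2 : 0 < v 2 := zero_lt_iff.2 (by simp)

theorem Ds.anti (h : Ds v K) {m n : ℤ} : v 2 ^ m < v 2 ^ n ↔ n < m :=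
  zpow_lt_zpow_iff_right_of_lt_one₀ p2 h.lt

theorem Ds.anti' (h : Ds v K) {m n : ℤ} : v 2 ^ m ≤ v 2 ^ n ↔ n ≤ m :=
  zpow_le_zpow_iff_right_of_lt_one₀ p2 h.lt

theorem Ds.inj (h : Ds v K) {m n : ℤ} (e : v 2 ^ m = v 2 ^ n) : m = n :=
  le_antisymm (h.anti'.1 e.ge) (h.anti'.1 e.le)

/-- the valuations in one step -/
theorem Ds.step (h : Ds v K) {s : F} (k : Dt K s) : ∃ σ ∈ K, σ ≠ 0 ∧ s = σ ^ 2 ∧ Dt K (nx σ) ∧
    ∃ m r t u : ℤ, v σ = v 2 ^ m ∧ v s = v 2 ^ (2 * m) ∧ v (nx σ) = v 2 ^ (2 * (u - r)) ∧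
      1 + m = 2 * r ∧ m + u = 2 * t ∧ (m < 1 → u = m) ∧ (1 < m → u = 1) := by
  obtain ⟨σ, a1, ρ, a2, τ, a3, σ0, b0, hs, e1, e2, k'⟩ := Hl.step k
  have two : (2 : F) ∈ K := by exact_mod_cast natCast_mem K 2
  obtain ⟨m, hm⟩ := h.ds σ a1 σ0
  obtain ⟨u, hu⟩ := h.ds _ (add_mem a1 two) b0
  obtain ⟨r, hr⟩ := h.ds ρ a2 fun e => mul_ne_zero two_ne_zero σ0 (by rw [e1, e]; ring)
  obtain ⟨t, ht⟩ := h.ds τ a3 fun e => mul_ne_zero σ0 b0 (by rw [e2, e]; ring)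
  have q0 := (p2 (v := v)).ne'
  have c1 : 1 + m = 2 * r := h.inj (by
    rw [zpow_add₀ q0, zpow_one, ← hm, ← map_mul, e1, map_pow, hr, two_mul, zpow_add₀ q0, sq])
  refine ⟨σ, a1, σ0, hs, k', m, r, t, u, hm,
    by rw [hs, map_pow, hm, two_mul, zpow_add₀ q0, sq], ?_, c1, h.inj ?_, fun l => h.inj ?_,
    fun l => h.inj ?_⟩
  · rw [nx, e1, map_div₀, map_pow, map_pow, hu, hr, ← div_pow, ← zpow_sub₀ q0, two_mul,
      zpow_add₀ q0, sq]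
  · rw [zpow_add₀ q0, ← hm, ← hu, ← map_mul, e2, map_pow, ht, two_mul, zpow_add₀ q0, sq]
  · rw [← hu, ← hm]
    exact v.map_add_eq_of_lt_left (by rw [hm, ← zpow_one (v 2), ← zpow_mul, one_mul]; exact h.anti.2 l)
  · rw [← hu, zpow_one]
    exact v.map_add_eq_of_lt_right (by
      rw [hm, ← zpow_one (v 2), ← zpow_mul, one_mul]; exact h.anti.2 l)

theorem Ds.neg (h : Ds v K) (n : ℕ) : ∀ s, Dt K s → v s = v 2 ^ (2 * -(n : ℤ)) → 0 < n → n = 1 := by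
  induction n using Nat.strong_induction_on with
  | _ n ih =>
    intro s k e l
    obtain ⟨σ, -, -, -, k', m, r, t, u, -, a, b, c, d, f, -⟩ := h.step k
    have := h.inj (a.symm.trans e)
    obtain ⟨n', hn⟩ := Int.eq_ofNat_of_zero_le (show 0 ≤ r - u by omega)
    by_contra
    have := ih n' (by omega) _ k' (by rw [b, ← hn, neg_sub]) (by omega)
    omega

/-- **the quotient curve is ordinary, in normal position** -/
theorem Ds.val (h : Ds v K) {s : F} (k : Dt K s) :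
    ∃ σ ∈ K, σ ≠ 0 ∧ s = σ ^ 2 ∧ v 2 ^ 2 * v (nx σ) = 1 := by
  obtain ⟨σ, a1, a2, a3, k', m, r, t, u, -, -, b, c, d, f, g⟩ := h.step k
  obtain ⟨_, -, -, -, -, m', r', -, -, -, a', -, c', -⟩ := h.step k'
  have := h.inj (a'.symm.trans b)
  obtain ⟨n', hn⟩ := Int.eq_ofNat_of_zero_le (show 0 ≤ r - u by omega)
  have := h.neg n' _ k' (by rw [b, ← hn, neg_sub]) (by omega)
  refine ⟨σ, a1, a2, a3, ?_⟩
  rw [b, show 2 * (u - r) = -2 by omega, zpow_neg, zpow_ofNat]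
  exact mul_inv_cancel₀ (pow_ne_zero 2 (p2 (v := v)).ne')

end Vale.Agent.P004F.Sp.Hl
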