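import Vale.Agent.P004F.Sp.Hlv0
import Vale.Agent.P179W.PtMap

/-! # P004F, block SPL: halving on a curve with an unramified tower of points -/

set_option linter.all false

open WeierstrassCurve WeierstrassCurve.Affine Filter
open scoped Classical

noncomputable section

namespace Vale.Agent.P004F.Sp.Hl

variable {F : Type} [Field F] [CharZero F] {K : Subfield F} {A B e d σ : F}

/-- the curve -/
abbrev Cw (A B : F) : Affine F := ⟨0, 0, 0, A, B⟩

/-- the numerator of `(x - e) / d` -/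
def cN (e : F) : (Cw A B).Point → F
  | .zero => 1
  | .some x _ _ => x - e

/-- the denominator of `(x - e) / d` -/
def cD (d : F) : (Cw A B).Point → F
  | .zero => 0
  | .some _ _ _ => d

def n1 (e d σ : F) (w : (Cw A B).Point) : F := 2 * σ * cN e w * cD d w

def n2 (e d : F) (w : (Cw A B).Point) : F := (cN e w - cD d w) ^ 2

theorem eqn {x y : F} (h : (Cw A B).Nonsingular x y) : y ^ 2 = x ^ 3 + A * x + B := by
  linear_combination (equation_iff _ _).1 h.1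

theorem lin {x y x' y' : F} (h : (Cw A B).Nonsingular x y) (h' : (Cw A B).Nonsingular x' y') :
    (x = x' ∧ y = -y' ∧ Point.some x y h + .some x' y' h' = 0) ∨ ∃ l n x₃ y₃ h₃,
      Point.some x y h + .some x' y' h' = .some x₃ y₃ h₃ ∧ y = l * x + n ∧ y' = l * x' + n ∧
      x + x' + x₃ = l ^ 2 ∧ x * x' + x * x₃ + x' * x₃ = A - 2 * l * n ∧
      x * x' * x₃ = n ^ 2 - B ∧ ¬ (x = x' ∧ y = -y') := by
  by_cases k : x = x' ∧ y = (Cw A B).negY x' y'
  · exact Or.inl ⟨k.1, by simpa [negY] using k.2, Point.add_of_Y_eq k.1 k.2⟩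
  obtain ⟨l, n, x₃, hl, hx₃, e₁, e₂, -, s1, s2, s3⟩ := P179W.line_rel h.1 h'.1 k
  subst hl hx₃
  exact Or.inr ⟨_, n, _, _, _, Point.add_some k, e₁, e₂, by simpa using s1, by simpa using s2,
    by simpa using s3, by simpa [negY] using k⟩

theorem dbl (rt : e ^ 3 + A * e + B = 0) (d : F) {x y : F} (h : (Cw A B).Nonsingular x y) :
    (y = 0 → 2 • Point.some x y h = 0) ∧ ∃ μ, μ ≠ 0 ∧
      cN e (2 • Point.some x y h) = μ * ((x - e) ^ 2 - (3 * e ^ 2 + A)) ^ 2 ∧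
      cD d (2 • Point.some x y h) = μ * (d * (4 * y ^ 2)) := by
  have q := eqn h
  have i : ((x - e) ^ 2 - (3 * e ^ 2 + A)) ^ 2 = (3 * x ^ 2 + A) ^ 2 - (8 * x + 4 * e) * y ^ 2 := by
    linear_combination (8 * x + 4 * e) * q + (8 * x + 4 * e) * rt
  rw [two_smul, i]
  rcases lin h h with ⟨-, b, c⟩ | ⟨l, n, x₃, y₃, h₃, c, e₁, -, s1, s2, -, k⟩
  · obtain rfl : y = 0 := by linear_combination b / 2
    have : 3 * x ^ 2 + A ≠ 0 := fun z => by
      have := ((nonsingular_iff' _ _).1 h).2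
      simp at this
      exact this (by linear_combination -z)
    refine ⟨fun _ => c, ((3 * x ^ 2 + A) ^ 2)⁻¹, inv_ne_zero (pow_ne_zero 2 this), ?_, ?_⟩
    · rw [c]
      change 1 = _
      field_simp
      ring
    · rw [c]
      change 0 = _
      ring
  · have y0 : y ≠ 0 := fun z => k ⟨rfl, by rw [z, neg_zero]⟩
    have : 3 * x ^ 2 + A = 2 * l * y := by linear_combination -s2 + 2 * x * s1 - 2 * l * e₁
    refine ⟨fun z => absurd z y0, (4 * y ^ 2)⁻¹, inv_ne_zero (by simpa using y0), ?_, ?_⟩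
    · rw [c, this]
      change x₃ - e = _
      field_simp
      linear_combination 4 * s1
    · rw [c]
      change d = _
      field_simp

variable {Γ : Type} [LinearOrderedCommGroupWithZero Γ] {v : Valuation F Γ}

/-- the normal form -/
structure Nf (v : Valuation F Γ) (K : Subfield F) (A B e d σ : F) : Prop extends Ds v K where
  eK : e ∈ K
  dK : d ∈ K
  σK : σ ∈ K
  d0 : d ≠ 0
  σ0 : σ ≠ 0
  rt : e ^ 3 + A * e + B = 0
  hb : 3 * e ^ 2 + A = d ^ 2
  hs : 3 * e + 2 * d = σ ^ 2 * d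
  vl : v 2 ^ 2 * v (nx σ) = 1

/-- the formal group at level `κ` -/
def Fv (v : Valuation F Γ) (κ : F) (w : (Cw A B).Point) : Prop :=
  ∀ x y k, w = .some x y k → 1 < v x ∧ 1 ≤ v κ ^ 2 * v x

theorem Ds.big (h : Ds v K) {a b : F} (ha : a ∈ K) (hb : b ∈ K) (b0 : b ≠ 0) :
    ∀ᶠ j : ℕ in atTop, ∀ t, 1 ≤ v 2 ^ j * v t → v a < v (b * t) := by
  have p : ∀ {j : ℕ} {t}, 1 ≤ v 2 ^ j * v t → 0 < v t := fun k => zero_lt_iff.2 fun z => by
    simp [z] at k
  by_cases a0 : a = 0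
  · refine .of_forall fun j t k => ?_
    rw [a0, map_zero, map_mul]
    exact mul_pos (zero_lt_iff.2 (by simpa using b0)) (p k)
  obtain ⟨n, hn⟩ := h.ds _ (div_mem hb ha) (div_ne_zero b0 a0)
  filter_upwards [eventually_gt_atTop n.toNat] with j hj t k
  have : v 2 ^ j < v (b / a) := by rw [hn, ← zpow_natCast]; exact h.anti.2 (by omega)
  have := k.trans_lt (mul_lt_mul_of_pos_right this (p k))
  rwa [map_div₀, div_mul_eq_mul_div, one_lt_div₀ (zero_lt_iff.2 (by simpa using a0)),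
    ← map_mul] at this

namespace Nf

variable (h : Nf v K A B e d σ)
include h

theorem cas (w : (Cw A B).Point) : (2 • w = 0 ∧ n1 e d σ w = 0 ∧ n2 e d w ≠ 0) ∨ ∃ t ν, ν ≠ 0 ∧
    n1 e d σ w ≠ 0 ∧ n2 e d w = t * n1 e d σ w ∧ cN e (2 • w) = ν * (t * (σ * t + 2)) ∧
    cD d (2 • w) = ν * (2 * t + σ) := by
  have d0 := h.d0
  have σ0 := h.σ0
  rcases w with _ | ⟨x, y, k⟩
  · exact Or.inl ⟨nsmul_zero 2, mul_zero _, by simp [n2, cN, cD]⟩
  obtain ⟨a, μ, μ0, b, c⟩ := dbl h.rt d k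
  have q : y ^ 2 = (x - e) * ((x - e - d) ^ 2 + σ ^ 2 * d * (x - e)) := by
    linear_combination eqn k + h.rt + (x - e) * h.hb + (x - e) ^ 2 * h.hs
  by_cases z : x - e = 0
  · exact Or.inl ⟨a (by simpa [z] using q), by simp [n1, cN, z], by simpa [n2, cN, cD, z]⟩
  have n0 : 2 * σ * (x - e) * d ≠ 0 := by simp [*]
  refine Or.inr ⟨(x - e - d) ^ 2 / (2 * σ * (x - e) * d), μ * (4 * σ * (x - e) ^ 2 * d ^ 2),
    by simp [*], n0, (div_mul_cancel₀ _ n0).symm, ?_, ?_⟩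
  · rw [b, h.hb]
    generalize x - e = ξ at z
    field_simp
    ring
  · rw [c, q]
    generalize x - e = ξ at z
    field_simp

theorem tr {y' : F} (k' : (Cw A B).Nonsingular (e + d) y') (w : (Cw A B).Point)
    (z : n1 e d σ w ≠ 0) : n2 e d (w + .some _ _ k') * n2 e d w =
      n1 e d σ (w + .some _ _ k') * n1 e d σ w := by
  rcases w with _ | ⟨x, y, k⟩
  · exact absurd (mul_zero _) z
  rcases lin k k' with ⟨a, -, c⟩ | ⟨l, n, x₃, y₃, h₃, c, -, e₂, s1, s2, s3, -⟩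
  · rw [c]
    change _ * (x - e - d) ^ 2 = 2 * σ * 1 * 0 * _
    subst a
    ring
  rw [c]
  change (x₃ - e - d) ^ 2 * (x - e - d) ^ 2 = 2 * σ * (x₃ - e) * d * (2 * σ * (x - e) * d)
  have q : y' ^ 2 = σ ^ 2 * d ^ 3 := by
    linear_combination eqn k' + h.rt + d * h.hb + d ^ 2 * h.hs
  have a : (x - e) * d * (x₃ - e) = (l * e + n) ^ 2 := by
    linear_combination s3 - e * s2 + e ^ 2 * s1 - h.rt
  have b : d * ((x₃ - e - d) * (x - e - d)) = 2 * y' * (l * e + n) := by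
    linear_combination d * s2 - 2 * d * (e + d) * s1 + d * h.hb + 2 * d ^ 2 * h.hs - 2 * q +
      (2 * y' + 2 * l * d) * e₂
  refine mul_left_cancel₀ (pow_ne_zero 2 h.d0) ?_
  linear_combination (d * ((x₃ - e - d) * (x - e - d)) + 2 * y' * (l * e + n)) * b +
    4 * (l * e + n) ^ 2 * q - 4 * σ ^ 2 * d ^ 3 * a

theorem two {w : (Cw A B).Point} {t ν : F} (a : cN e w = ν * (t * (σ * t + 2)))
    (b : cD d w = ν * (2 * t + σ)) :
    v (n1 e d σ w) = v (ν * σ) ^ 2 * (v 2 ^ 2 * v t * v ((t - 1) ^ 2 + nx σ * t)) ∧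
      v (n2 e d w) = v (ν * σ) ^ 2 * v (t ^ 2 - 1) ^ 2 := by
  have σ0 := h.σ0
  simp only [← map_pow, ← map_mul, n1, n2, a, b, nx]
  constructor <;> congr 1 <;> field_simp <;> ring

theorem one_lt : 1 < v (nx σ) := not_le.1 fun k =>
  (mul_lt_one_of_lt_of_le (pow_lt_one₀ zero_le' h.lt two_ne_zero) k).ne h.vl

/-- **halving** -/
theorem half {y' : F} (k' : (Cw A B).Nonsingular (e + d) y') {w : (Cw A B).Point}
    (k : v (n1 e d σ (2 • w)) < v (n2 e d (2 • w))) : v (n1 e d σ w) < v (n2 e d w) ∨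
      v (n1 e d σ (w + .some _ _ k')) < v (n2 e d (w + .some _ _ k')) := by
  rcases h.cas w with ⟨-, a, b⟩ | ⟨t, ν, ν0, a, b, c, c'⟩
  · exact Or.inl (by rw [a, map_zero]; exact zero_lt_iff.2 (by simpa using b))
  have p : 0 < v (n1 e d σ w) := zero_lt_iff.2 (by simpa using a)
  rcases lt_trichotomy (v t) 1 with l | l | l
  · have e1 := h.tr k' w a
    rw [b, ← mul_assoc, mul_left_inj' a] at e1
    have : n2 e d (w + .some _ _ k') ≠ 0 := by
      rcases h.cas (w + .some _ _ k') with ⟨-, -, b'⟩ | ⟨-, -, -, a', -⟩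
      exacts [b', left_ne_zero_of_mul (e1 ▸ a')]
    exact Or.inr (by
      rw [← e1, map_mul]; exact mul_lt_of_lt_one_right (zero_lt_iff.2 (by simpa using this)) l)
  · obtain ⟨e1, e2⟩ := h.two c c'
    rw [e1, e2, v.map_add_eq_of_lt_right (by
      rw [map_mul, l, mul_one, map_pow]
      exact (pow_le_one₀ zero_le' (v.map_sub_le l.le (by simp))).trans_lt h.one_lt),
      map_mul v (nx σ), l, mul_one, mul_one, h.vl] at k
    exact absurd k (not_lt.2 (mul_le_mul_right (pow_le_one₀ zero_le'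
      (v.map_sub_le (by simp [l]) (by simp))) _))
  · exact Or.inl (by rw [b, map_mul]; exact lt_mul_of_one_lt_left p l)

theorem up {j : ℕ} (hj : 0 < j) {w : (Cw A B).Point}
    (k : v (n1 e d σ w) ≤ v 2 ^ j * v (n2 e d w)) :
    v (n1 e d σ (2 • w)) ≤ v 2 ^ (j + 1) * v (n2 e d (2 • w)) := by
  rcases h.cas w with ⟨a, -⟩ | ⟨t, ν, ν0, a, b, c, c'⟩
  · rw [a, show n1 e d σ (0 : (Cw A B).Point) = 0 from mul_zero _, map_zero]
    exact zero_le'
  have p : 0 < v (n1 e d σ w) := zero_lt_iff.2 (by simpa using a)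
  rw [b, map_mul, ← mul_assoc, le_mul_iff_one_le_left p] at k
  have k1 : 1 ≤ v 2 * v t := k.trans (mul_le_mul_left (pow_le_of_le_one zero_le' h.lt.le hj.ne') _)
  have l : 1 < v t := not_le.1 fun l => (mul_lt_one_of_lt_of_le h.lt l).not_ge k1
  obtain ⟨e1, e2⟩ := h.two c c'
  have e3 : v (t ^ 2 - 1) = v t ^ 2 := by
    rw [v.map_sub_eq_of_lt_left (by simpa using one_lt_pow₀ l two_ne_zero), map_pow]
  have e4 : v 2 ^ 2 * v ((t - 1) ^ 2 + nx σ * t) ≤ v 2 * v t ^ 2 := by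
    refine (mul_le_mul_right (v.map_add _ _) _).trans ?_
    rw [mul_max, map_pow, v.map_sub_eq_of_lt_left (by simpa using l), map_mul, ← mul_assoc, h.vl,
      sq (v t), ← mul_assoc, ← mul_assoc]
    exact max_le (mul_le_mul_left (mul_le_mul_left (pow_le_of_le_one zero_le' h.lt.le
      two_ne_zero) _) _) (mul_le_mul_left k1 _)
  rw [e1, e2, e3, mul_left_comm (v 2 ^ (j + 1))]
  refine mul_le_mul_right ?_ _
  calc _ = 1 * v t * (v 2 ^ 2 * v ((t - 1) ^ 2 + nx σ * t)) := by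
        rw [one_mul, mul_left_comm, mul_assoc]
    _ ≤ v 2 ^ j * v t * v t * (v 2 * v t ^ 2) := mul_le_mul' (mul_le_mul_left k _) e4
    _ = _ := by simp only [pow_succ, pow_zero, one_mul]; ac_rfl

theorem fin {κ : F} (hκ : κ ∈ K) (κ0 : κ ≠ 0) : ∃ j : ℕ, ∀ w : (Cw A B).Point,
    v (n1 e d σ w) ≤ v 2 ^ j * v (n2 e d w) → Fv v κ (2 • w) := by
  have two : (2 : F) ∈ K := by exact_mod_cast natCast_mem K 2
  have m := div_mem (mul_mem h.dK h.σK) two
  have m0 : d * σ / 2 ≠ 0 := by simp [h.d0, h.σ0]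
  obtain ⟨j, ⟨⟨⟨a1, a2⟩, a3⟩, a4⟩, a5⟩ := (((((h.big two h.σK h.σ0).and
    (h.big h.σK two two_ne_zero)).and (h.big h.eK m m0)).and (h.big K.one_mem m m0)).and
    (h.big K.one_mem (mul_mem (pow_mem hκ 2) m) (mul_ne_zero (pow_ne_zero 2 κ0) m0))).exists
  refine ⟨j, fun w k x y hxy e0 => ?_⟩
  rcases h.cas w with ⟨a, -⟩ | ⟨t, ν, ν0, a, b, c, c'⟩
  · exact absurd (e0.symm.trans a) (Point.some_ne_zero _)
  rw [b, map_mul v t, ← mul_assoc, le_mul_iff_one_le_left (zero_lt_iff.2 (by simpa using a))] at k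
  rw [e0] at c c'
  change x - e = _ at c
  change d = _ at c'
  have e1 : v (x - e) = v (d * σ / 2 * t) := by
    rw [c, c', map_mul, map_mul, v.map_add_eq_of_lt_left (a1 t k)]
    simp only [map_mul, map_div₀, v.map_add_eq_of_lt_left (a2 t k)]
    have := (p2 (v := v)).ne'
    field_simp
  have e2 : v x = v (d * σ / 2 * t) := by
    have := v.map_add_eq_of_lt_left ((a3 t k).trans_eq e1.symm)
    rwa [sub_add_cancel, e1] at this
  rw [e2, ← map_pow, ← map_mul, ← mul_assoc, ← v.map_one]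
  exact ⟨a4 t k, (a5 t k).le⟩

theorem ini : ∃ j : ℕ, ∀ w : (Cw A B).Point, Fv v (2 ^ j) w → v (n1 e d σ w) < v (n2 e d w) := by
  have two : (2 : F) ∈ K := by exact_mod_cast natCast_mem K 2
  obtain ⟨j, ⟨a1, a2⟩, a3⟩ := (((h.big h.eK K.one_mem one_ne_zero).and
    (h.big (add_mem h.eK h.dK) K.one_mem one_ne_zero)).and
    (h.big (mul_mem (mul_mem two h.σK) h.dK) K.one_mem one_ne_zero)).exists
  refine ⟨j, fun w k => ?_⟩
  rcases w with _ | ⟨x, y, hxy⟩
  · simp [n1, n2, cN, cD]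
  obtain ⟨k1, k2⟩ := k x y hxy rfl
  rw [map_pow] at k2
  replace k2 := k2.trans (mul_le_mul_left (pow_le_of_le_one zero_le'
    (pow_le_one₀ zero_le' h.lt.le) two_ne_zero) _)
  simp only [one_mul] at a1 a2 a3
  change v (2 * σ * (x - e) * d) < v ((x - e - d) ^ 2)
  rw [sub_sub, map_pow, v.map_sub_eq_of_lt_left (a2 x k2), mul_right_comm, map_mul,
    v.map_sub_eq_of_lt_left (a1 x k2), sq]
  exact mul_lt_mul_of_pos_right (a3 x k2) (zero_lt_one.trans k1)

theorem dis {w : (Cw A B).Point} (hw : ∀ x y k, w = .some x y k → x ∈ K)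
    (k : v (n1 e d σ w) < v (n2 e d w)) : v (n1 e d σ w) ≤ v 2 ^ 1 * v (n2 e d w) := by
  have two : (2 : F) ∈ K := by exact_mod_cast natCast_mem K 2
  have m : cN e w ∈ K ∧ cD d w ∈ K := by
    rcases w with _ | ⟨x, y, hxy⟩
    exacts [⟨K.one_mem, K.zero_mem⟩, ⟨sub_mem (hw x y hxy rfl) h.eK, h.dK⟩]
  by_cases z : n1 e d σ w = 0
  · rw [z, map_zero]
    exact zero_le'
  obtain ⟨a, ha⟩ := h.ds (n1 e d σ w) (mul_mem (mul_mem (mul_mem two h.σK) m.1) m.2) z
  obtain ⟨b, hb⟩ := h.ds (n2 e d w) (pow_mem (sub_mem m.1 m.2) 2) fun z => by simp [z] at k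
  rw [ha, hb, h.anti] at k
  rw [ha, hb, ← zpow_natCast, ← zpow_add₀ (p2 (v := v)).ne', h.anti']
  omega

end Nf

variable {T : ℕ → (Cw A B).Point}

theorem Ds.nf (h : Ds v K) (hD : 4 * A ^ 3 + 27 * B ^ 2 ≠ 0) (h0 : T 0 = 0)
    (hs : ∀ n, 2 • T (n + 1) = T n) (h1 : T 1 ≠ 0)
    (hK : ∀ n x y k, T n = .some x y k → x ∈ K ∧ y ∈ K) :
    ∃ e d σ y k, Nf v K A B e d σ ∧ T 2 = .some (e + d) y k := by
  have two : (2 : F) ∈ K := by exact_mod_cast natCast_mem K 2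
  have ne : ∀ n, T (n + 1) ≠ 0 := fun n => by
    induction n with
    | zero => exact h1
    | succ n ih => exact fun z => ih (by rw [← hs, z, nsmul_zero])
  have ex : ∀ n, ∃ x y k, T (n + 1) = .some x y k := fun n => by
    have := ne n
    generalize T (n + 1) = w at this
    rcases w with _ | ⟨x, y, k⟩
    exacts [absurd rfl this, ⟨x, y, k, rfl⟩]
  choose X Y k hT using ex
  have m := fun n => hK _ _ _ _ (hT n)
  have Y0 : Y 0 = 0 := by
    rcases lin (k 0) (k 0) with ⟨-, b, -⟩ | ⟨_, _, _, _, _, c, -⟩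
    · linear_combination b / 2
    · rw [← two_smul ℕ, ← hT, hs, h0] at c
      exact absurd c.symm (Point.some_ne_zero _)
  obtain ⟨e, he⟩ : ∃ e, e = X 0 := ⟨_, rfl⟩
  have rt : e ^ 3 + A * e + B = 0 := by rw [he, ← eqn (k 0), Y0]; ring
  have db : ∀ n, Y (n + 1) ≠ 0 ∧ (X n - e) * (4 * Y (n + 1) ^ 2) =
      ((X (n + 1) - e) ^ 2 - (3 * e ^ 2 + A)) ^ 2 := fun n => by
    obtain ⟨a, μ, -, b, c⟩ := dbl rt 1 (k (n + 1))
    rw [← hT, hs] at a
    rw [← hT, hs, hT] at b c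
    change X n - e = _ at b
    change 1 = _ at c
    exact ⟨fun z => ne n (a z), by rw [b, mul_right_comm, ← one_mul (4 * _), ← c, one_mul]⟩
  have nz : ∀ n, X (n + 1) - e ≠ 0 := fun n z => (db n).1 (pow_eq_zero_iff two_ne_zero |>.1 (by
    rw [eqn (k (n + 1)), sub_eq_zero.1 z, rt]))
  obtain ⟨d, hd⟩ : ∃ d, d = X 1 - e := ⟨_, rfl⟩
  have d0 : d ≠ 0 := hd ▸ nz 0
  have eK : e ∈ K := he ▸ (m 0).1
  have dK : d ∈ K := hd ▸ sub_mem (m 1).1 eK
  have hb : 3 * e ^ 2 + A = d ^ 2 := by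
    have := (db 0).2
    rw [← he, sub_self, zero_mul, zero_add, ← hd] at this
    linear_combination -(pow_eq_zero_iff two_ne_zero).1 this.symm
  let L : ℕ → F := fun n => ((X (n + 2) - e) ^ 2 - d ^ 2) / (2 * Y (n + 2))
  have hL : ∀ n, L n ^ 2 = X (n + 1) - e := fun n => by
    obtain ⟨a, b⟩ := db (n + 1)
    rw [div_pow, ← hb, ← b]
    field_simp
    ring
  have L0 : ∀ n, L n ≠ 0 := fun n z => nz n (by rw [← hL, z]; ring)
  have LK : ∀ n, L n ∈ K := fun n => div_mem (sub_mem (pow_mem (sub_mem (m _).1 eK) 2)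
    (pow_mem dK 2)) (mul_mem two (m _).2)
  have ds : 4 * A ^ 3 + 27 * B ^ 2 = d ^ 4 * ((2 * d - 3 * e) * (3 * e + 2 * d)) := by
    rw [show A = d ^ 2 - 3 * e ^ 2 by linear_combination hb,
      show B = 2 * e ^ 3 - d ^ 2 * e by linear_combination rt - e * hb]
    ring
  rw [ds] at hD
  have a := right_ne_zero_of_mul hD
  obtain ⟨σ, b1, b2, b3, b4⟩ := h.val (s := (3 * e + 2 * d) / d) ⟨div_ne_zero
    (right_ne_zero_of_mul a) d0, fun z => left_ne_zero_of_mul a (by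
      rw [div_eq_iff d0] at z; linear_combination -z), fun n => L n / L 0,
    fun n => ⟨div_mem (LK n) (LK 0), div_ne_zero (L0 n) (L0 0)⟩,
    (congrArg (· ^ 2) (div_self (L0 0))).trans (one_pow 2), fun n => by
      have c := (db (n + 1)).2
      rw [eqn (k _), hb] at c
      simp only [R, div_pow, hL, zero_add, ← hd]
      field_simp
      linear_combination c - 4 * (X (n + 1) - e) * (rt + (X (n + 1 + 1) - e) * hb)⟩
  have e2 : X 1 = e + d := by rw [hd]; ring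
  exact ⟨e, d, σ, Y 1, e2 ▸ k 1, ⟨h, eK, dK, b1, d0, b2, rt, hb, by rw [← b3]; field_simp, b4⟩,
    (hT 1).trans (by congr 1)⟩

/-- **points which fall into the formal group after doubling** -/
theorem Ds.main (h : Ds v K) (hD : 4 * A ^ 3 + 27 * B ^ 2 ≠ 0) (h0 : T 0 = 0)
    (hs : ∀ n, 2 • T (n + 1) = T n) (h1 : T 1 ≠ 0) (G : AddSubgroup (Cw A B).Point)
    (hG : ∀ x y k, .some x y k ∈ G → x ∈ K ∧ y ∈ K) (hT : ∀ n, T n ∈ G) :
    ∃ j : ℕ, ∀ κ ∈ K, κ ≠ 0 → ∃ c : ℕ, ∀ y ∈ G, ∀ k : ℕ, Fv v (2 ^ j) (2 ^ k • y) →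
      ∃ (n : ℕ) (i : ℤ), Fv v κ (2 ^ c • y - i • T n) := by
  obtain ⟨e, d, σ, y₂, k₂, N, e2⟩ := h.nf hD h0 hs h1 fun n x y k z => hG x y k (z ▸ hT n)
  have pw : ∀ k, 2 ^ k • T (k + 2) = T 2 := fun k => by
    induction k with
    | zero => exact one_nsmul _
    | succ k ih => rw [pow_succ', mul_nsmul, Nat.succ_add, hs, ih]
  have key : ∀ (k : ℕ) (y : (Cw A B).Point), v (n1 e d σ (2 ^ k • y)) < v (n2 e d (2 ^ k • y)) →
      ∃ i : ℤ, v (n1 e d σ (y - i • T (k + 1))) < v (n2 e d (y - i • T (k + 1))) := by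
    intro k
    induction k with
    | zero => exact fun y a => ⟨0, by simpa using a⟩
    | succ k ih =>
      intro y a
      rw [pow_succ, mul_nsmul] at a
      rcases N.half k₂ a with b | b
      · obtain ⟨i, c⟩ := ih y b
        exact ⟨i * 2, by rwa [mul_zsmul, two_zsmul, ← two_nsmul, hs]⟩
      · rw [← e2, ← pw k, ← nsmul_add] at b
        obtain ⟨i, c⟩ := ih _ b
        exact ⟨i * 2 - 1, by rwa [sub_zsmul, mul_zsmul, two_zsmul, ← two_nsmul, hs, one_zsmul,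
          ← sub_eq_add_neg, ← sub_add, sub_add_eq_add_sub]⟩
  obtain ⟨j, hj⟩ := N.ini
  refine ⟨j, fun κ hκ κ0 => ?_⟩
  obtain ⟨c, hc⟩ := N.fin hκ κ0
  refine ⟨c + 1, fun y hy k a => ?_⟩
  obtain ⟨i, b⟩ := key k y (hj _ a)
  have up : ∀ n : ℕ, v (n1 e d σ (2 ^ n • (y - i • T (k + 1)))) ≤
      v 2 ^ (n + 1) * v (n2 e d (2 ^ n • (y - i • T (k + 1)))) := fun n => by
    induction n with
    | zero =>
      rw [pow_zero, one_nsmul]
      exact N.dis (fun x y' k' z => (hG x y' k' (z ▸ sub_mem hy (zsmul_mem (hT _) i))).1) b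
    | succ n ih => rw [pow_succ 2 n, mul_nsmul]; exact N.up n.succ_pos ih
  refine ⟨k + 1, 2 ^ (c + 1) * i, ?_⟩
  have := hc _ ((up c).trans (mul_le_mul_left (pow_le_pow_of_le_one zero_le' h.lt.le c.le_succ) _))
  rwa [← mul_nsmul, ← pow_succ, nsmul_sub, ← natCast_zsmul (i • T (k + 1)), ← mul_zsmul,
    Nat.cast_pow, Nat.cast_ofNat] at this

end Vale.Agent.P004F.Sp.Hl
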