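import Vale.Agent.P004F.St

/-! # P004F, block SPL / LGC: a vector fixed by inertia at two (statements) -/

set_option linter.all false

open NumberField
open scoped Classical NumberTheorySymbols

noncomputable section

namespace Vale.Agent.P004F.Sp

open Vale.Agent.P022 Vale.Agent.P004K P027H P027M.M
open Vale.Agent.P022E.GW (Ov Fb)
open P004M.TE (Pt ga)
open Qx (Fk Ur)

/-- `a` is the coefficient at `p` of the twist by `D` of the newform of level `49` -/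
def Tc (D : ℕ) (a : ℤ) (p : ℕ) : Prop :=
  (∀ t y : ℤ, 4 * (p : ℤ) = t ^ 2 + 7 * y ^ 2 → a = J(p | D) * J(t | 7) * t) ∧
    (J(p | 7) = -1 → a = 0)

/-- **the theta series**: level and coefficient at two -/
def THE : Prop := ∀ N G a (D S : ℕ), P004N.RN N G a → Odd D → S ≠ 0 →
  (∀ p : ℕ, p.Prime → ¬ p ∣ S → Tc D (a p) p) → ¬ 2 ∣ N ∧ a 2 = J(2 | D)

/-- an unramified tower of points, with parameters `z` -/
structure Tw {A B : ℤ} (Λ : Submodule ℤ ℂ) (P : Ideal (𝓞 Qb)) (T : ℕ → Pt A B) (z : ℕ → ℂ) :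
    Prop where
  disc : 4 * A ^ 3 + 27 * B ^ 2 ≠ 0
  lat : IsLat Λ
  g2 : g2 Λ = -4 * A
  g3 : g3 Λ = -4 * B
  ov : Ov 2 P
  zero : T 0 = 0
  succ : ∀ n, 2 • T (n + 1) = T n
  one : T 1 ≠ 0
  ur : ∀ n, Ur P (T n)
  un : ∀ n, Un Λ (z n) (T n)

/-- multiplication by `2 π`, where `π = (1 ± √-7) / 2` is a unit at `P` -/
structure Cm (Λ : Submodule ℤ ℂ) (P : Ideal (𝓞 Qb)) (z : ℕ → ℂ) (π : ℂ) : Prop where
  eq : π ^ 2 - π + 2 = 0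
  mul : ∀ w ∈ Λ, 2 * π * w ∈ Λ
  unit : ∀ a : Qb, io a = π → ¬ Zp P a
  tor : ∀ n, ∃ k : ℕ, 2 * π ^ k * z n ∈ Λ

/-- **the traces of Frobenius elements** -/
def CMT : Prop := ∀ (A B : ℤ) Λ P (T : ℕ → Pt A B) z π (h : Tw Λ P T z), Cm Λ P z π →
  ∃ D S : ℕ, Odd D ∧ S ≠ 0 ∧
    (∀ l : ℕ, l.Prime → ¬ l ∣ S → ∀ g, IsFrob l g → ∀ t : ℤ,
      (P004M.TE.mt (hq h.disc) g).trace = t → Tc D t l) ∧
    ∀ φ, Fb 2 P φ → ∀ n, ga φ (ga φ (T n)) - J(2 | D) • ga φ (T n) + 2 • T n = 0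

/-- **the arithmetic-geometric mean**: complex multiplication -/
def AGM : Prop := ∀ (A B : ℤ) Λ P (T : ℕ → Pt A B) z φ, Tw Λ P T z → Fb 2 P φ →
  (∀ n, ∃ k : ℤ, ga φ (T n) = k • T n) → ∃ π, Cm Λ P z π

/-- **halving** -/
def HLV : Prop := ∀ (A B : ℤ) Λ P (T : ℕ → Pt A B) z, Tw Λ P T z → ∃ κ₀ : ℕ, κ₀ ≠ 0 ∧
  ∀ κ : ℕ, κ ≠ 0 → ∃ c₀ : ℕ, ∀ (y : Pt A B) (k : ℕ), Ur P y → Fk P κ₀ (2 ^ k • y) →
    ∃ (n : ℕ) (i : ℤ), Fk P κ (2 ^ c₀ • y - i • T n)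

end Vale.Agent.P004F.Sp
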