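import Vale.Agent.P022.H472.Lit

/-! # P004F, row THE: the coefficients of the theta series of discriminant `-7` -/

open scoped Classical NumberTheorySymbols
open Finset

noncomputable section

namespace Vale.Agent.P004F.Sp.Th

open Vale.Agent.P022

/-- the norm -/
abbrev Q (v : ℤ × ℤ) : ℤ := Qf 1 1 2 v

/-- the product -/
def ml (u v : ℤ × ℤ) : ℤ × ℤ := (u.1 * v.1 - 2 * u.2 * v.2, u.1 * v.2 + u.2 * v.1 + u.2 * v.2)

/-- the conjugate -/
def cj (u : ℤ × ℤ) : ℤ × ℤ := (u.1 + u.2, -u.2)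

/-- the trace -/
def tr (u : ℤ × ℤ) : ℤ := 2 * u.1 + u.2

/-- the weight -/
def f (v : ℤ × ℤ) : ℂ := (J(tr v | 7) : ℤ)

/-- the character -/
def F (v : ℤ × ℤ) : ℂ := f v * ev 1 1 7 v

theorem Q_ml (u v : ℤ × ℤ) : Q (ml u v) = Q u * Q v := by
  simp only [Q, Qf, ml]
  ring

theorem Q_cj (u : ℤ × ℤ) : Q (cj u) = Q u := by
  simp only [Q, Qf, cj]
  ring

theorem tr_cj (u : ℤ × ℤ) : tr (cj u) = tr u := by
  simp only [tr, cj]
  ring

theorem four_Q (u : ℤ × ℤ) : 4 * Q u = tr u ^ 2 + 7 * u.2 ^ 2 := by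
  simp only [Q, Qf, tr]
  ring

theorem J2 : J(2 | 7) = 1 := by norm_num

theorem J_tr (u v : ℤ × ℤ) : J(tr (ml u v) | 7) = J(tr u | 7) * J(tr v | 7) := by
  rw [← jacobiSym.mul_left, ← one_mul J(tr (ml u v) | 7), ← J2, ← jacobiSym.mul_left]
  refine jacobiSym.mod_left' ?_
  have : tr u * tr v = 2 * tr (ml u v) + 7 * (u.2 * v.2) := by
    simp only [tr, ml]
    ring
  rw [this]
  push_cast
  omega

theorem F_ml (u v : ℤ × ℤ) : F (ml u v) = F u * F v := by
  have h : ((Real.sqrt (7 : ℕ) : ℝ) : ℂ) ^ 2 = 7 := by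
    rw [← Complex.ofReal_pow, Real.sq_sqrt (by positivity)]
    norm_num
  have e : ev 1 1 7 (ml u v) = ev 1 1 7 u * ev 1 1 7 v := by
    simp only [ev, ml]
    push_cast
    push_cast at h
    linear_combination (-(u.2 * v.2 : ℂ) / 4 * (Real.sqrt 7 : ℂ) ^ 2) * Complex.I_sq +
      (u.2 * v.2 : ℂ) / 4 * h
  unfold F f
  rw [J_tr, e]
  push_cast
  ring

theorem F_add_cj (u : ℤ × ℤ) : F u + F (cj u) = ((J(tr u | 7) * tr u : ℤ) : ℂ) := by
  unfold F f
  rw [tr_cj]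
  simp only [ev, cj, tr]
  push_cast
  ring

theorem F_int (p : ℤ) : F (p, 0) = J(p | 7) * p := by
  have : J(tr (p, 0) | 7) = J(p | 7) := by
    simp only [tr, add_zero]
    rw [jacobiSym.mul_left, J2, one_mul]
  unfold F f
  rw [this]
  simp [ev]

/-- the elements of norm `n` -/
def T (n : ℕ) : Finset (ℤ × ℤ) :=
  (Icc (-(n : ℤ)) n ×ˢ Icc (-(n : ℤ)) n).filter fun v => Q v = n

theorem mem_T {n : ℕ} {v : ℤ × ℤ} : v ∈ T n ↔ Q v = n := by
  rw [T, mem_filter, mem_product, mem_Icc, mem_Icc, and_iff_right_iff_imp]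
  intro h
  simp only [Q, Qf] at h
  have n0 : (0 : ℤ) ≤ n := Int.natCast_nonneg n
  refine ⟨⟨?_, ?_⟩, ?_, ?_⟩ <;> by_contra c <;> push Not at c
  · nlinarith [sq_nonneg (v.1 + 4 * v.2)]
  · nlinarith [sq_nonneg (v.1 + 4 * v.2)]
  · nlinarith [sq_nonneg (2 * v.1 + v.2)]
  · nlinarith [sq_nonneg (2 * v.1 + v.2)]

/-- twice the coefficient -/
def S (n : ℕ) : ℂ := ∑ v ∈ T n, F v

theorem ml_inj {u : ℤ × ℤ} (h : Q u ≠ 0) : Function.Injective (ml u) := by
  intro v w e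
  have e1 := congrArg Prod.fst e
  have e2 := congrArg Prod.snd e
  simp only [ml] at e1 e2
  refine Prod.ext (mul_left_cancel₀ h ?_) (mul_left_cancel₀ h ?_) <;> simp only [Q, Qf]
  · linear_combination (u.1 + u.2) * e1 + 2 * u.2 * e2
  · linear_combination (-u.2) * e1 + u.1 * e2

theorem sum_ml {u : ℤ × ℤ} (h : Q u ≠ 0) (n : ℕ) : ∑ v ∈ (T n).image (ml u), F v = F u * S n := by
  rw [sum_image fun v _ w _ e => ml_inj h e, S, mul_sum]
  exact sum_congr rfl fun v _ => F_ml u v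

/-- the multiples of `p` -/
theorem sum_p {p : ℕ} (hp : p.Prime) (n : ℕ) :
    ∑ v ∈ (T (p * n)).filter (fun v => (p : ℤ) ∣ v.1 ∧ (p : ℤ) ∣ v.2), F v =
      J(p | 7) * if p ∣ n then (p : ℂ) * S (n / p) else 0 := by
  have p0 : (p : ℤ) ≠ 0 := by exact_mod_cast hp.ne_zero
  have q : Q ((p : ℤ), 0) = p * p := by simp [Q, Qf, sq]
  have key : ∀ x y : ℤ, Q (p * x, p * y) = (p * n : ℕ) ↔ (n : ℤ) = p * Q (x, y) := by
    intro x y
    simp only [Q, Qf]
    push_cast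
    constructor
    · intro h
      apply mul_left_cancel₀ p0
      linear_combination -h
    · intro h
      linear_combination (-(p : ℤ)) * h
  split_ifs with h
  · obtain ⟨k, rfl⟩ := h
    rw [Nat.mul_div_cancel_left _ hp.pos, ← mul_assoc (J(p | 7) : ℂ)]
    have := F_int p
    push_cast at this
    rw [← this, ← sum_ml (q ▸ mul_ne_zero p0 p0)]
    refine sum_congr ?_ fun _ _ => rfl
    ext v
    simp only [mem_filter, mem_image, mem_T]
    constructor
    · rintro ⟨h, ⟨x, hx⟩, y, hy⟩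
      obtain rfl : v = (p * x, p * y) := Prod.ext hx hy
      refine ⟨(x, y), mul_left_cancel₀ p0 ?_, by simp [ml]⟩
      rw [← (key x y).1 h]
      push_cast
      rfl
    · rintro ⟨w, h, rfl⟩
      refine ⟨?_, by simp [ml], by simp [ml]⟩
      rw [Q_ml, q, h]
      push_cast
      ring
  · rw [mul_zero]
    refine sum_eq_zero fun v hv => (h ?_).elim
    simp only [mem_filter, mem_T] at hv
    obtain ⟨h, ⟨x, hx⟩, y, hy⟩ := hv
    obtain rfl : v = (p * x, p * y) := Prod.ext hx hy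
    exact Int.natCast_dvd_natCast.1 ⟨_, (key x y).1 h⟩

theorem J_Q {u : ℤ × ℤ} (h : J(Q u | 7) ≠ 0) : J(Q u | 7) = 1 := by
  have e : J(Q u | 7) = J(u.1 + 4 * u.2 | 7) ^ 2 := by
    rw [← jacobiSym.pow_left]
    refine jacobiSym.mod_left' ?_
    have : (u.1 + 4 * u.2) ^ 2 = Q u + 7 * (u.1 * u.2 + 2 * u.2 ^ 2) := by
      simp only [Q, Qf]
      ring
    rw [this]
    push_cast
    omega
  rw [e] at h ⊢
  rcases jacobiSym.trichotomy (u.1 + 4 * u.2) 7 with r | r | r <;> simp_all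

theorem J_ne {p : ℕ} (hp : p.Prime) (h7 : p ≠ 7) : J(p | 7) ≠ 0 := by
  rw [Ne, jacobiSym.eq_zero_iff_not_coprime, not_not, Int.gcd_natCast_natCast]
  exact (Nat.coprime_primes hp (by norm_num)).2 h7

theorem div_of {p : ℕ} (hp : p.Prime) {u v : ℤ × ℤ} (hu : Q u = p) {n : ℕ} (hv : Q v = (p * n : ℕ))
    (h : (p : ℤ) ∣ v.2 * u.1 - v.1 * u.2) : ∃ w, Q w = n ∧ ml u w = v := by
  have p0 : (p : ℤ) ≠ 0 := by exact_mod_cast hp.ne_zero
  have pp := Nat.prime_iff_prime_int.1 hp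
  obtain ⟨b, hb⟩ := h
  have q := Q_ml (cj u) v
  rw [Q_cj, hu, hv] at q
  have e2 : (ml (cj u) v).2 = p * b := by
    simp only [ml, cj]
    linear_combination hb
  obtain ⟨a, ha⟩ : (p : ℤ) ∣ (ml (cj u) v).1 := by
    refine pp.dvd_of_dvd_pow (n := 2) ⟨p * n - (ml (cj u) v).1 * b - 2 * p * b ^ 2, ?_⟩
    simp only [Q, Qf, e2] at q
    push_cast at q
    linear_combination q
  refine ⟨(a, b), ?_, ?_⟩
  · apply mul_left_cancel₀ (mul_ne_zero p0 p0)
    simp only [Q, Qf, e2, ha] at q ⊢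
    push_cast at q
    linear_combination q
  · simp only [ml, cj] at ha e2
    simp only [Q, Qf] at hu
    refine Prod.ext (mul_left_cancel₀ p0 ?_) (mul_left_cancel₀ p0 ?_) <;> simp only [ml]
    · linear_combination (-u.1) * ha + 2 * u.2 * e2 + v.1 * hu
    · linear_combination (-u.2) * ha - (u.1 + u.2) * e2 + v.2 * hu

theorem split {p : ℕ} (hp : p.Prime) (h7 : p ≠ 7) {u : ℤ × ℤ} (hu : Q u = p) (n : ℕ) :
    S (p * n) + (if p ∣ n then (p : ℂ) * S (n / p) else 0) =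
      ((J(tr u | 7) * tr u : ℤ) : ℂ) * S n := by
  have p0 : (p : ℤ) ≠ 0 := by exact_mod_cast hp.ne_zero
  have pp := Nat.prime_iff_prime_int.1 hp
  have hc : Q (cj u) = p := by rw [Q_cj, hu]
  have j1 : J(p | 7) = 1 := hu ▸ J_Q (hu ▸ J_ne hp h7)
  have nt : ¬ (p : ℤ) ∣ tr u := by
    intro h
    have h1 : (p : ℤ) ∣ 7 * u.2 ^ 2 := by
      have : 7 * u.2 ^ 2 = 4 * p - tr u ^ 2 := by linear_combination -four_Q u + 4 * hu
      rw [this]
      exact dvd_sub (dvd_mul_left _ _) (dvd_pow h two_ne_zero)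
    rcases pp.dvd_or_dvd h1 with h2 | h2
    · exact h7 ((Nat.prime_dvd_prime_iff_eq hp (by norm_num)).1 (by exact_mod_cast h2))
    · obtain ⟨y, hy⟩ := pp.dvd_of_dvd_pow h2
      simp only [Q, Qf, hy] at hu
      obtain ⟨x, hx⟩ : (p : ℤ) ∣ u.1 :=
        pp.dvd_of_dvd_pow (n := 2) ⟨1 - u.1 * y - 2 * p * y ^ 2, by linear_combination hu⟩
      rw [hx] at hu
      refine pp.not_dvd_one ⟨x ^ 2 + x * y + 2 * y ^ 2, mul_left_cancel₀ p0 ?_⟩
      linear_combination -hu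
  have h1 : (T n).image (ml u) ∪ (T n).image (ml (cj u)) = T (p * n) := by
    ext v
    simp only [mem_union, mem_image, mem_T]
    constructor
    · rintro (⟨w, h, rfl⟩ | ⟨w, h, rfl⟩) <;> rw [Q_ml, h] <;> simp [hu, hc]
    · intro h
      have : (p : ℤ) ∣ (v.2 * u.1 - v.1 * u.2) * (v.2 * (cj u).1 - v.1 * (cj u).2) := by
        refine ⟨v.2 ^ 2 - n * u.2 ^ 2, ?_⟩
        simp only [Q, Qf, cj] at hu h ⊢
        push_cast at h
        linear_combination v.2 ^ 2 * hu - u.2 ^ 2 * h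
      exact (pp.dvd_or_dvd this).imp (div_of hp hu h) (div_of hp hc h)
  have h2 : (T n).image (ml u) ∩ (T n).image (ml (cj u)) =
      (T (p * n)).filter (fun v => (p : ℤ) ∣ v.1 ∧ (p : ℤ) ∣ v.2) := by
    ext v
    simp only [mem_inter, mem_image, mem_T, mem_filter]
    constructor
    · rintro ⟨⟨w, h, e⟩, w', -, e'⟩
      refine ⟨by rw [← e, Q_ml, h]; simp [hu], ?_⟩
      have a1 := congrArg Prod.fst e
      have a2 := congrArg Prod.snd e
      have b1 := congrArg Prod.fst e'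
      have b2 := congrArg Prod.snd e'
      simp only [ml, cj] at a1 a2 b1 b2
      simp only [Q, Qf] at hu
      refine ⟨(pp.dvd_or_dvd (a := tr u) ⟨w.1 + w'.1, ?_⟩).resolve_left nt,
        (pp.dvd_or_dvd (a := tr u) ⟨w.2 + w'.2, ?_⟩).resolve_left nt⟩ <;> simp only [tr]
      · linear_combination (-(u.1 + u.2)) * a1 - 2 * u.2 * a2 - u.1 * b1 + 2 * u.2 * b2 +
          (w.1 + w'.1) * hu
      · linear_combination u.2 * a1 - u.1 * a2 - u.2 * b1 - (u.1 + u.2) * b2 + (w.2 + w'.2) * hu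
    · rintro ⟨h, a, b⟩
      exact ⟨div_of hp hu h (dvd_sub (b.mul_right _) (a.mul_right _)),
        div_of hp hc h (dvd_sub (b.mul_right _) (a.mul_right _))⟩
  have := sum_union_inter (s₁ := (T n).image (ml u)) (s₂ := (T n).image (ml (cj u))) (f := F)
  rw [h1, h2, sum_p hp, j1, sum_ml (hu ▸ p0), sum_ml (hc ▸ p0), ← add_mul, F_add_cj] at this
  simpa [S] using this

theorem red (m : ℕ) (hm : 0 < m) (v : ℤ × ℤ) :
    ∃ (w : ℤ × ℤ) (s t : ℤ), v.1 = w.1 + m * s ∧ v.2 = w.2 + m * t ∧ Q w < m ^ 2 := by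
  obtain ⟨y, t, e1, l1, u1⟩ : ∃ y t : ℤ, v.2 = y + m * t ∧ -(m : ℤ) ≤ 2 * y ∧ 2 * y ≤ m :=
    ⟨v.2.bmod m, v.2.bdiv m, (Int.bmod_add_bdiv _ _).symm, by
      have := Int.le_bmod (x := v.2) hm; omega, by
      have := Int.bmod_le (x := v.2) hm; omega⟩
  obtain ⟨z, s, e2, l2, u2⟩ : ∃ z s : ℤ, 2 * v.1 + y = z + 2 * m * s ∧ -(m : ℤ) ≤ z ∧ z ≤ m :=
    ⟨(2 * v.1 + y).bmod (2 * m), (2 * v.1 + y).bdiv (2 * m), by
      have := Int.bmod_add_bdiv (2 * v.1 + y) (2 * m)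
      push_cast at this
      exact this.symm, by
      have := Int.le_bmod (x := 2 * v.1 + y) (m := 2 * m) (by omega); omega, by
      have := Int.bmod_le (x := 2 * v.1 + y) (m := 2 * m) (by omega); omega⟩
  refine ⟨(v.1 - m * s, y), s, t, by ring, e1, ?_⟩
  have h := four_Q (v.1 - m * s, y)
  have e : tr (v.1 - m * s, y) = z := by
    simp only [tr]
    linear_combination e2
  rw [e] at h
  have m0 : (0 : ℤ) < m := by exact_mod_cast hm
  simp only at h
  nlinarith [mul_nonneg (sub_nonneg.2 u2) (sub_nonneg.2 l2), mul_nonneg (sub_nonneg.2 u1) (sub_nonneg.2 l1)]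

theorem Q_nn (w : ℤ × ℤ) : 0 ≤ Q w := by nlinarith [four_Q w, sq_nonneg (tr w), sq_nonneg w.2]

theorem Q_zero {w : ℤ × ℤ} (h : Q w = 0) : w.1 = 0 ∧ w.2 = 0 := by
  have := four_Q w
  have h2 : w.2 = 0 := by nlinarith [sq_nonneg (tr w), sq_nonneg w.2]
  simp only [Q, Qf, h2] at h
  exact ⟨by simpa using h, h2⟩

theorem desc {p : ℕ} (hp : p.Prime) (m : ℕ) : 0 < m → m < p → ∀ v, Q v = m * p →
    ∃ u, Q u = p := by
  induction m using Nat.strong_induction_on with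
  | _ m ih =>
    intro m0 mp v hv
    by_cases m1 : m = 1
    · exact ⟨v, by simpa [m1] using hv⟩
    obtain ⟨w, s, t, e1, e2, lt⟩ := red m m0 v
    have M0 : (0 : ℤ) < m := by exact_mod_cast m0
    obtain ⟨k, hk⟩ : ∃ k : ℤ, k = p - (2 * w.1 * s + w.1 * t + w.2 * s + 4 * w.2 * t +
      m * (s ^ 2 + s * t + 2 * t ^ 2)) := ⟨_, rfl⟩
    have q : Q w = m * k := by
      simp only [Q, Qf, e1, e2] at hv ⊢
      linear_combination hv - m * hk
    have k0 : 0 ≤ k := by nlinarith [Q_nn w]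
    obtain ⟨k, rfl⟩ := Int.eq_ofNat_of_zero_le k0
    have km : k < m := by
      have : (k : ℤ) < m := by nlinarith
      exact_mod_cast this
    refine ih k km (Nat.pos_of_ne_zero ?_) (km.trans mp) (k + s * (w.1 + w.2) + 2 * t * w.2,
      t * w.1 - s * w.2) ?_
    · rintro rfl
      obtain ⟨a, b⟩ := Q_zero (by simpa using q)
      have : m ∣ p := Int.natCast_dvd_natCast.1 ⟨s ^ 2 + s * t + 2 * t ^ 2, by
        rw [a, b] at hk
        push_cast at hk
        linear_combination -hk⟩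
      rcases (Nat.dvd_prime hp).1 this with h | h <;> omega
    · have h := Q_ml v (cj w)
      rw [Q_cj, hv, q] at h
      have a : ml v (cj w) = (m * (k + s * (w.1 + w.2) + 2 * t * w.2), m * (t * w.1 - s * w.2)) := by
        simp only [Q, Qf] at q
        refine Prod.ext ?_ ?_ <;> simp only [ml, cj, e1, e2]
        · linear_combination q
        · ring
      apply mul_left_cancel₀ (mul_ne_zero M0.ne' M0.ne')
      rw [a] at h
      simp only [Q, Qf] at h ⊢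
      linear_combination h

theorem ex_of {p : ℕ} (hp : p.Prime) {v : ℤ × ℤ} (h : (p : ℤ) ∣ Q v)
    (n : ¬ ((p : ℤ) ∣ v.1 ∧ (p : ℤ) ∣ v.2)) : ∃ u, Q u = p := by
  obtain ⟨w, s, t, e1, e2, lt⟩ := red p hp.pos v
  have P0 : (0 : ℤ) < p := by exact_mod_cast hp.pos
  obtain ⟨r, hr⟩ := h
  obtain ⟨k, q⟩ : ∃ k : ℤ, Q w = k * p := ⟨r - (2 * w.1 * s + w.1 * t + w.2 * s + 4 * w.2 * t +
      p * (s ^ 2 + s * t + 2 * t ^ 2)), by
    simp only [Q, Qf, e1, e2] at hr ⊢
    linear_combination hr⟩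
  have k0 : 0 ≤ k := by nlinarith [Q_nn w]
  obtain ⟨k, rfl⟩ := Int.eq_ofNat_of_zero_le k0
  refine desc hp k (Nat.pos_of_ne_zero ?_) ?_ w q
  · rintro rfl
    obtain ⟨a, b⟩ := Q_zero (by simpa using q)
    exact n ⟨⟨s, by rw [e1, a, zero_add]⟩, t, by rw [e2, b, zero_add]⟩
  · have : (k : ℤ) < p := by nlinarith
    exact_mod_cast this

theorem inert {p : ℕ} (hp : p.Prime) (h : J(p | 7) = -1) (n : ℕ) :
    S (p * n) + (if p ∣ n then (p : ℂ) * S (n / p) else 0) = 0 := by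
  have := sum_p hp n
  rw [filter_true_of_mem, h] at this
  · rw [S, this]
    push_cast
    ring
  · intro v hv
    by_contra c
    obtain ⟨u, hu⟩ := ex_of hp ⟨n, by simpa using mem_T.1 hv⟩ c
    have := J_Q (u := u) (by rw [hu, h]; decide)
    rw [hu, h] at this
    exact absurd this (by decide)

theorem ex_split {p : ℕ} (hp : p.Prime) (h : J(p | 7) = 1) : ∃ u, Q u = p := by
  by_cases p2 : p = 2
  · exact ⟨(0, 1), by simp [Q, Qf, p2]⟩
  have := Fact.mk hp
  have od := hp.odd_of_ne_two p2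
  have j : J(-7 | p) = 1 := by
    rw [jacobiSym.neg _ od]
    rcases Nat.odd_mod_four_iff.1 (Nat.odd_iff.1 od) with r | r
    · have := jacobiSym.quadratic_reciprocity_one_mod_four r (b := 7) (by decide)
      rw [ZMod.χ₄_nat_one_mod_four r, one_mul]
      exact this.symm.trans h
    · have := jacobiSym.quadratic_reciprocity_three_mod_four r (b := 7) (by decide)
      rw [ZMod.χ₄_nat_three_mod_four r, neg_one_mul]
      exact this.symm.trans h
  obtain ⟨s, hs⟩ := ZMod.isSquare_of_jacobiSym_eq_one j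
  obtain ⟨s, rfl⟩ := ZMod.intCast_surjective s
  refine ex_of hp (v := (s - 1, 2)) ?_ fun c => p2 ?_
  · rw [← ZMod.intCast_zmod_eq_zero_iff_dvd]
    simp only [Q, Qf]
    push_cast at hs ⊢
    linear_combination -hs
  · exact (Nat.prime_dvd_prime_iff_eq hp Nat.prime_two).1 (Int.natCast_dvd_natCast.1 c.2)

theorem S_seven (n : ℕ) : S (7 * n) = 0 := by
  refine sum_eq_zero fun v hv => ?_
  have h := four_Q v
  rw [mem_T.1 hv] at h
  obtain ⟨t, ht⟩ : (7 : ℤ) ∣ tr v := Int.Prime.dvd_pow' (k := 2) (p := 7) (by norm_num)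
    ⟨4 * n - v.2 ^ 2, by push_cast at h ⊢; linear_combination -h⟩
  unfold F f
  rw [ht, jacobiSym.mul_left, show J(7 | 7) = 0 by norm_num]
  simp

theorem S_one : S 1 = 2 := by
  have : T 1 = {(1, 0), (-1, 0)} := by decide
  rw [S, this, sum_pair (by decide), F_int, F_int]
  norm_num

theorem rec {p : ℕ} (hp : p.Prime) (h7 : p ≠ 7) : ∃ a : ℤ,
    (∀ n, S (p * n) + (if p ∣ n then (p : ℂ) * S (n / p) else 0) = a * S n) ∧
    ((J(p | 7) = -1 ∧ a = 0) ∨ ∃ t y : ℤ, 4 * (p : ℤ) = t ^ 2 + 7 * y ^ 2 ∧ a = J(t | 7) * t) := by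
  rcases jacobiSym.trichotomy p 7 with r | r | r
  · exact absurd r (J_ne hp h7)
  · obtain ⟨u, hu⟩ := ex_split hp r
    exact ⟨_, split hp h7 hu, Or.inr ⟨tr u, u.2, hu ▸ four_Q u, rfl⟩⟩
  · exact ⟨0, fun n => by simpa using inert hp r n, Or.inl ⟨r, rfl⟩⟩

theorem S_int (n : ℕ) : ∃ c : ℤ, S n = 2 * c := by
  induction n using Nat.strong_induction_on with
  | _ n ih =>
    by_cases n0 : n = 0
    · exact ⟨0, by simpa [n0] using S_seven 0⟩
    by_cases n1 : n = 1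
    · exact ⟨1, by simpa [n1] using S_one⟩
    obtain ⟨p, hp, k, rfl⟩ := Nat.exists_prime_and_dvd n1
    by_cases h7 : p = 7
    · exact ⟨0, by simpa [h7] using S_seven k⟩
    obtain ⟨a, h, -⟩ := rec hp h7
    have k0 : 0 < k := Nat.pos_of_ne_zero (by rintro rfl; simp at n0)
    have lt : k < p * k := by nlinarith [hp.one_lt]
    obtain ⟨c, hc⟩ := ih k lt
    obtain ⟨d, hd⟩ := ih (k / p) ((Nat.div_le_self _ _).trans_lt lt)
    refine ⟨a * c - if p ∣ k then p * d else 0, ?_⟩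
    have := h k
    rw [hc, hd] at this
    split_ifs at this ⊢ <;> push_cast <;> linear_combination this

/-- the coefficients -/
theorem coef : ∃ c : ℕ → ℤ, (∀ n, S n = 2 * c n) ∧ c 1 = 1 ∧ c 2 = 1 ∧ ∀ p : ℕ, p.Prime → p ≠ 7 →
    (∀ n, (c (p * n) : ℂ) + (if p ∣ n then (p : ℂ) * c (n / p) else 0) = c p * c n) ∧
    ((J(p | 7) = -1 ∧ c p = 0) ∨
      ∃ t y : ℤ, 4 * (p : ℤ) = t ^ 2 + 7 * y ^ 2 ∧ c p = J(t | 7) * t) := by
  choose c hc using S_int
  have c1 : c 1 = 1 := by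
    have := hc 1
    rw [S_one] at this
    exact_mod_cast (show (c 1 : ℂ) = 1 by linear_combination -this / 2)
  refine ⟨c, hc, c1, ?_, fun p hp h7 => ?_⟩
  · have := split Nat.prime_two (by norm_num) (u := (0, 1)) (by simp [Q, Qf]) 1
    rw [S_one, hc] at this
    norm_num [tr] at this
    exact_mod_cast this
  · obtain ⟨a, h, h'⟩ := rec hp h7
    have e : c p = a := by
      have := h 1
      rw [S_one, mul_one, hc, if_neg (by simpa using hp.ne_one)] at this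
      exact_mod_cast (show (c p : ℂ) = a by linear_combination this / 2)
    refine ⟨fun n => ?_, e ▸ h'⟩
    have := h n
    simp only [hc] at this
    rw [e]
    split_ifs at this ⊢ <;> linear_combination this / 2

end Vale.Agent.P004F.Sp.Th
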